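import Vale.Agent.P272.BR.Defs
import Vale.Agent.P272.CT.Weyl

/-! P272, steps (3) and (4) on the manifold `X`: holomorphic discs continuous on the closed disc,
frames of `f^*TX`, local additions along `f`, deformations.

`K = closedBall 0 1`, `D = ball 0 1` in `ℂ`. A frame is the family `E e z` of its matrices in the
charts `e` of `X` at `f z` (the columns are the components of the frame vectors). -/

open scoped Manifold ContDiff Topology
open Set Metric

set_option linter.all false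

noncomputable section

namespace Vale.Agent.P272.GEO

open Vale.Agent.P272.K Vale.Agent.P272.BR Vale.Agent.P272.CT

section defs
variable (n : ℕ) {X : Type*} [TopologicalSpace X] [ChartedSpace (Cm n) X]

/-- `f` is a holomorphic disc, continuous on the closed unit disc. -/
structure Disc (f : ℂ → X) : Prop where
  cont : ContinuousOn f (closedBall 0 1)
  holo : HolOn n f (ball 0 1)

variable {n}

/-- `E` is a frame of `f^*TX` over the closed disc (only continuous). -/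
structure CFrame (f : ℂ → X) (E : Chart n X → ℂ → Matrix (Fin n) (Fin n) ℂ) : Prop where
  change : ∀ (e e' : Chart n X) (z : ℂ), z ∈ closedBall (0 : ℂ) 1 → At e (f z) → At e' (f z) →
    E e' z = jacM e e' (f z) * E e z
  cont : ∀ (e : Chart n X) (z : ℂ), z ∈ closedBall (0 : ℂ) 1 → At e (f z) →
    ContinuousWithinAt (E e) (closedBall 0 1) z
  det : ∀ (e : Chart n X) (z : ℂ), z ∈ closedBall (0 : ℂ) 1 → At e (f z) → (E e z).det ≠ 0

/-- `E` is a frame of `f^*TX` over the closed disc, holomorphic in the open disc. -/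
structure HFrame (f : ℂ → X) (E : Chart n X → ℂ → Matrix (Fin n) (Fin n) ℂ) : Prop
    extends CFrame f E where
  holo : ∀ (e : Chart n X) (z : ℂ), z ∈ ball (0 : ℂ) 1 → At e (f z) → ∀ i j,
    DifferentiableAt ℂ (fun ζ => E e ζ i j) z

/-- `B` is a smooth frame of `f^*TX` with `∂̄B = B a`, where `a` is continuous on the closed
disc. -/
structure SFrame (f : ℂ → X) (B : Chart n X → ℂ → Matrix (Fin n) (Fin n) ℂ)
    (a : ℂ → Matrix (Fin n) (Fin n) ℂ) : Prop extends CFrame f B where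
  smooth : ∀ (e : Chart n X) (z : ℂ), z ∈ ball (0 : ℂ) 1 → At e (f z) → ∀ i j,
    ContDiffAt ℝ ∞ (fun ζ => B e ζ i j) z
  dbarB : ∀ (e : Chart n X) (z : ℂ), z ∈ ball (0 : ℂ) 1 → At e (f z) → ∀ i j,
    dbar (fun ζ => B e ζ i j) z = (B e z * a z) i j
  acont : ContinuousOn a (closedBall 0 1)

/-- Local addition along `f` with derivative `E`: fibrewise holomorphic maps `Y z` from a ball of
`ℂⁿ` to `X` with `Y z 0 = f z`, and the field `Q` with `∂̄_z Y = D_vY Q`: if `∂̄v = -Q(z, v)` then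
`z ↦ Y z (v z)` is holomorphic. -/
structure LocAdd (f : ℂ → X) (E : Chart n X → ℂ → Matrix (Fin n) (Fin n) ℂ) (ρ A : ℝ)
    (Y : ℂ → Cm n → X) (Q : ℂ → Cm n → Cm n) : Prop where
  pos : 0 < ρ
  zero : ∀ z ∈ closedBall (0 : ℂ) 1, Y z 0 = f z
  cont : ContinuousOn (fun p : ℂ × Cm n => Y p.1 p.2) (closedBall 0 1 ×ˢ ball 0 ρ)
  holo : ∀ z ∈ closedBall (0 : ℂ) 1, ∀ v ∈ ball (0 : Cm n) ρ, ∀ e : Chart n X, At e (Y z v) →
    DifferentiableAt ℂ (fun u => e (Y z u)) v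
  deriv : ∀ z ∈ closedBall (0 : ℂ) 1, ∀ e : Chart n X, At e (f z) → ∀ u : Cm n,
    fderiv ℂ (fun v => e (Y z v)) 0 u = (E e z).mulVec u
  qcont : ContinuousOn (fun p : ℂ × Cm n => Q p.1 p.2) (closedBall 0 1 ×ˢ ball 0 ρ)
  qholo : ∀ z ∈ closedBall (0 : ℂ) 1, DifferentiableOn ℂ (Q z) (ball 0 ρ)
  qbound : ∀ z ∈ closedBall (0 : ℂ) 1, ∀ v ∈ ball (0 : Cm n) ρ, ‖Q z v‖ ≤ A * ‖v‖ ^ 2
  hol : ∀ v : ℂ → Cm n, ContinuousOn v (ball 0 1) → (∀ z ∈ ball (0 : ℂ) 1, v z ∈ ball (0 : Cm n) ρ) →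
    WDb (ball 0 1) v (fun z => - Q z (v z)) → HolOn n (fun z => Y z (v z)) (ball 0 1)

/-- `F s z`, `|s| < ε`, is a holomorphic family of discs, continuous on the closed disc, with
`F 0 = f`, `F s 0 = f 0` and `∂_sF(0, z) = E(z) (z p(z))`. -/
structure Deform (f : ℂ → X) (E : Chart n X → ℂ → Matrix (Fin n) (Fin n) ℂ) (p : ℂ → Cm n)
    (ε : ℝ) (F : ℂ → ℂ → X) : Prop where
  pos : 0 < ε
  disc : ∀ s ∈ ball (0 : ℂ) ε, Disc n (F s)
  zero : ∀ z ∈ closedBall (0 : ℂ) 1, F 0 z = f z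
  base : ∀ s ∈ ball (0 : ℂ) ε, F s 0 = f 0
  cont : ContinuousOn (fun q : ℂ × ℂ => F q.1 q.2) (ball 0 ε ×ˢ closedBall 0 1)
  /-- joint holomorphy in the interior -/
  joint : ∀ s ∈ ball (0 : ℂ) ε, ∀ z ∈ ball (0 : ℂ) 1, ∀ e : Chart n X, At e (F s z) →
    DifferentiableAt ℂ (fun q : ℂ × ℂ => e (F q.1 q.2)) (s, z)
  sholo : ∀ s ∈ ball (0 : ℂ) ε, ∀ z ∈ closedBall (0 : ℂ) 1, ∀ e : Chart n X, At e (F s z) →
    DifferentiableAt ℂ (fun σ => e (F σ z)) s
  /-- `∂_sF` is continuous up to the boundary -/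
  scont : ∀ s ∈ ball (0 : ℂ) ε, ∀ z ∈ closedBall (0 : ℂ) 1, ∀ e : Chart n X, At e (F s z) →
    ContinuousWithinAt (fun q : ℂ × ℂ => deriv (fun σ => e (F σ q.2)) q.1)
      (ball 0 ε ×ˢ closedBall 0 1) (s, z)
  sderiv : ∀ z ∈ closedBall (0 : ℂ) 1, ∀ e : Chart n X, At e (f z) →
    deriv (fun σ => e (F σ z)) 0 = (E e z).mulVec (z • p z)
  /-- the velocity at the centre is holomorphic in `s` -/
  vholo : ∀ e : Chart n X, At e (f 0) → DifferentiableOn ℂ (fun σ => vel (F σ) e 0) (ball 0 ε)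
  vderiv : ∀ e : Chart n X, At e (f 0) →
    deriv (fun σ => vel (F σ) e 0) 0 = (E e 0).mulVec (p 0)

end defs

/-- (3a), smooth frames. Owner: helper921. -/
def SFrameStmt : Prop :=
  ∀ (n : ℕ) (X : Type) [TopologicalSpace X] [T2Space X] [CompactSpace X]
    [ChartedSpace (Cm n) X] [IsManifold 𝓘(ℂ, Cm n) ω X] (f : ℂ → X), Disc n f →
    ∃ B a, SFrame (n := n) f B a

/-- (3b), the frame theorem in one variable. Owner: helper747. -/
def GaugeStmt : Prop :=
  ∀ (n : ℕ) (a : ℂ → Matrix (Fin n) (Fin n) ℂ), ContinuousOn a (closedBall 0 1) →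
    ∃ g : ℂ → Matrix (Fin n) (Fin n) ℂ, ContinuousOn g (closedBall 0 1) ∧
      (∀ z ∈ closedBall (0 : ℂ) 1, (g z).det ≠ 0) ∧
      ∀ i j, WDb (ball 0 1) (fun z => g z i j) (fun z => -(a z * g z) i j)

/-- (3), holomorphic frames. Owner: helper921. -/
def HFrameStmt : Prop :=
  ∀ (n : ℕ) (X : Type) [TopologicalSpace X] [T2Space X] [CompactSpace X]
    [ChartedSpace (Cm n) X] [IsManifold 𝓘(ℂ, Cm n) ω X] (f : ℂ → X), Disc n f →
    ∃ E, HFrame (n := n) f E

/-- (4), local additions. Owner: helper339. -/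
def LocAddStmt : Prop :=
  ∀ (n : ℕ) (X : Type) [TopologicalSpace X] [T2Space X] [CompactSpace X]
    [ChartedSpace (Cm n) X] [IsManifold 𝓘(ℂ, Cm n) ω X] (f : ℂ → X)
    (E : Chart n X → ℂ → Matrix (Fin n) (Fin n) ℂ), Disc n f → HFrame f E →
    ∃ ρ A Y Q, LocAdd f E ρ A Y Q

/-- (4), deformations. Owner: helper856. `p` is an entire function, e.g. a polynomial. -/
def DeformStmt : Prop :=
  ∀ (n : ℕ) (X : Type) [TopologicalSpace X] [T2Space X] [CompactSpace X]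
    [ChartedSpace (Cm n) X] [IsManifold 𝓘(ℂ, Cm n) ω X] (f : ℂ → X)
    (E : Chart n X → ℂ → Matrix (Fin n) (Fin n) ℂ) (ρ A : ℝ) (Y : ℂ → Cm n → X)
    (Q : ℂ → Cm n → Cm n), Disc n f → LocAdd f E ρ A Y Q →
    ∀ p : ℂ → Cm n, Differentiable ℂ p → ∃ ε F, Deform f E p ε F

end Vale.Agent.P272.GEO
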