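import Vale.Agent.P272.GEO.G2c
import Mathlib.Geometry.Manifold.PartitionOfUnity

/-! (G2): the local addition along a holomorphic disc, from a holomorphic frame. -/

open scoped Manifold ContDiff Topology
open Complex Set Filter Metric

set_option linter.all false

noncomputable section

namespace Vale.Agent.P272.GEO

open Vale.Agent.P272.K Vale.Agent.P272.BR Vale.Agent.P272.CT

section mc
variable {n : ℕ}

/-- the operator of a matrix -/
def mc (M : Matrix (Fin n) (Fin n) ℂ) : Cm n →L[ℂ] Cm n :=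
  LinearMap.toContinuousLinearMap (Matrix.toLin' M)

lemma mc_apply (M : Matrix (Fin n) (Fin n) ℂ) (v : Cm n) : mc M v = M.mulVec v := rfl

lemma mc_mul (M N : Matrix (Fin n) (Fin n) ℂ) : mc (M * N) = (mc M).comp (mc N) := by
  ext1 v
  show (M * N).mulVec v = M.mulVec (N.mulVec v)
  rw [Matrix.mulVec_mulVec]

lemma mc_isUnit {M : Matrix (Fin n) (Fin n) ℂ} (h : M.det ≠ 0) : IsUnit (mc M) := by
  have hu : IsUnit M.det := isUnit_iff_ne_zero.2 h
  refine ⟨⟨mc M, mc M⁻¹, ?_, ?_⟩, rfl⟩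
  · ext1 v
    show M.mulVec (M⁻¹.mulVec v) = v
    rw [Matrix.mulVec_mulVec, Matrix.mul_nonsing_inv _ hu, Matrix.one_mulVec]
  · ext1 v
    show M⁻¹.mulVec (M.mulVec v) = v
    rw [Matrix.mulVec_mulVec, Matrix.nonsing_inv_mul _ hu, Matrix.one_mulVec]

/-- elementary operators -/
def el (i j : Fin n) : Cm n →L[ℂ] Cm n :=
  (ContinuousLinearMap.proj (R := ℂ) (φ := fun _ : Fin n => ℂ) j).smulRight (Pi.single i (1 : ℂ) : Cm n)

lemma mc_eq_sum (M : Matrix (Fin n) (Fin n) ℂ) : mc M = ∑ i, ∑ j, M i j • el i j := by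
  ext1 v
  funext k
  rw [mc_apply]
  simp only [ContinuousLinearMap.sum_apply, Finset.sum_apply]
  rw [Finset.sum_eq_single k]
  · simp only [Matrix.mulVec, dotProduct]
    refine Finset.sum_congr rfl fun j _ => ?_
    show M k j * v j = (M k j • (v j • (Pi.single k (1 : ℂ) : Cm n))) k
    simp
  · intro i _ hi
    refine Finset.sum_eq_zero fun j _ => ?_
    show (M i j • (v j • (Pi.single i (1 : ℂ) : Cm n))) k = 0
    simp [hi.symm]
  · simp

lemma mc_cont {E : ℂ → Matrix (Fin n) (Fin n) ℂ} {S : Set ℂ} {z : ℂ}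
    (h : ContinuousWithinAt E S z) : ContinuousWithinAt (fun z => mc (E z)) S z := by
  simp only [mc_eq_sum]
  refine tendsto_finsetSum _ fun i _ => tendsto_finsetSum _ fun j _ => ?_
  have h1 : Continuous fun M : Matrix (Fin n) (Fin n) ℂ => M i j := continuous_id.matrix_elem i j
  have h2 : ContinuousWithinAt (fun z => E z i j) S z :=
    h1.continuousAt.comp_continuousWithinAt h
  exact h2.smul (continuousWithinAt_const (b := el i j))

lemma mc_contDiff {E : ℂ → Matrix (Fin n) (Fin n) ℂ} {z : ℂ}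
    (h : ∀ i j, ContDiffAt ℂ 1 (fun z => E z i j) z) : ContDiffAt ℂ 1 (fun z => mc (E z)) z := by
  simp only [mc_eq_sum]
  refine ContDiffAt.sum fun i _ => ContDiffAt.sum fun j _ => ?_
  exact (h i j).smul (contDiffAt_const (c := el i j))

end mc

section
variable {n : ℕ} {X : Type*} [TopologicalSpace X] [ChartedSpace (Cm n) X]

/-- finitely many charts along a disc, and a subordinate partition of unity of the closed disc -/
lemma exists_cover {f : ℂ → X} (hf : ContinuousOn f KK) :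
    ∃ (t : Finset ℂ) (c : t → Chart n X) (θ : t → ℂ → ℂ), (∀ i, c i ∈ atlas (Cm n) X) ∧
      (∀ i, ContDiff ℝ ∞ (θ i)) ∧ (∀ z ∈ KK, ∑ i, θ i z = 1) ∧
      ∀ i, ∀ z ∈ KK, z ∈ tsupport (θ i) → f z ∈ (c i).source := by
  have h1 : ∀ z : ℂ, ∃ V : Set ℂ, IsOpen V ∧
      f ⁻¹' (chartAt (Cm n) (f z)).source ∩ KK = V ∩ KK := fun z =>
    continuousOn_iff'.1 hf _ (chartAt (Cm n) (f z)).open_source
  choose V hV hVe using h1
  have hcov : KK ⊆ ⋃ z : ℂ, V z := by
    intro z hz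
    have : z ∈ f ⁻¹' (chartAt (Cm n) (f z)).source ∩ KK := ⟨mem_chart_source _ _, hz⟩
    rw [hVe z] at this
    exact mem_iUnion.2 ⟨z, this.1⟩
  obtain ⟨t, ht⟩ := (isCompact_closedBall (0 : ℂ) 1).elim_finite_subcover V hV hcov
  have hcov' : KK ⊆ ⋃ i : t, V i := by
    intro z hz
    obtain ⟨w, hw⟩ := mem_iUnion.1 (ht hz)
    obtain ⟨hwt, hwz⟩ := mem_iUnion.1 hw
    exact mem_iUnion.2 ⟨⟨w, hwt⟩, hwz⟩
  obtain ⟨ψ, hψ⟩ := SmoothPartitionOfUnity.exists_isSubordinate 𝓘(ℝ, ℂ)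
    (isClosed_closedBall : IsClosed KK) (fun i : t => V i) (fun i => hV i) hcov'
  refine ⟨t, fun i => chartAt (Cm n) (f i), fun i z => ((ψ i z : ℝ) : ℂ), fun i =>
    chart_mem_atlas _ _, fun i => ?_, fun z hz => ?_, fun i z hz hzi => ?_⟩
  · have h2 : ContDiff ℝ ∞ (ψ i) := (ψ i).contMDiff.contDiff
    exact Complex.ofRealCLM.contDiff.comp h2
  · have h2 := ψ.sum_eq_one hz
    rw [finsum_eq_sum_of_fintype] at h2
    rw [← Complex.ofReal_sum, h2, Complex.ofReal_one]
  · have h2 : tsupport (fun z => ((ψ i z : ℝ) : ℂ)) ⊆ tsupport (ψ i) := by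
      refine closure_mono fun w hw => ?_
      simpa using hw
    have h3 : z ∈ V i ∩ KK := ⟨hψ i (h2 hzi), hz⟩
    rw [← hVe i] at h3
    exact h3.1

variable [IsManifold 𝓘(ℂ, Cm n) ω X]

lemma mc_jacM {e e' : Chart n X} {x : X} (he : At e x) (he' : At e' x) :
    mc (jacM e e' x) = fderiv ℂ (fun a => e' (e.symm a)) (e x) := by
  ext1 v
  funext p
  rw [mc_apply, jacM_eq, jmat_mulVec (transition_differentiableAt he he')]
  rfl

/-- the data of `G2b` from a holomorphic frame -/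
lemma exists_dat {f : ℂ → X} {E : Chart n X → ℂ → Matrix (Fin n) (Fin n) ℂ} (hf : Disc n f)
    (hE : HFrame f E) : ∃ (t : Finset ℂ) (d : Dat n X t), d.f = f ∧
      ∀ i z, d.F i z = mc (E (d.c i) z) := by
  obtain ⟨t, c, θ, hc, hθ, hsum, hs⟩ := exists_cover (n := n) hf.cont
  refine ⟨t, ⟨f, c, θ, fun i z => mc (E (c i) z), hf.cont, hf.holo, hc, hθ, hsum, hs, ?_, ?_, ?_,
    ?_⟩, rfl, fun i z => rfl⟩
  · exact fun i z hz hzi => mc_isUnit (hE.det _ z hz ⟨hc i, hs i z hz hzi⟩)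
  · exact fun i z hz hzi => mc_cont (hE.cont _ z hz ⟨hc i, hs i z hz hzi⟩)
  · intro i z hz hzi
    have hat : At (c i) (f z) := ⟨hc i, hs i z (ball_subset_closedBall hz) hzi⟩
    refine mc_contDiff fun p q => ?_
    have h1 : ∀ᶠ w in 𝓝 z, DifferentiableAt ℂ (fun ζ => E (c i) ζ p q) w := by
      filter_upwards [HolAt.eventually_at (hf.holo z hz).1 hat, isOpen_ball.mem_nhds hz]
        with w hw hwD
      exact hE.holo _ w hwD hw p q
    exact (Complex.analyticAt_iff_eventually_differentiableAt.2 h1).contDiffAt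
  · intro i k z hz hzi hzk
    have ati : At (c i) (f z) := ⟨hc i, hs i z hz hzi⟩
    have atk : At (c k) (f z) := ⟨hc k, hs k z hz hzk⟩
    show mc (E (c k) z) = _
    rw [hE.change (c i) (c k) z hz ati atk, mc_mul, mc_jacM ati atk]

/-- **(G2)** the local addition along a holomorphic disc with a holomorphic frame. -/
theorem local_addition {f : ℂ → X} {E : Chart n X → ℂ → Matrix (Fin n) (Fin n) ℂ}
    (hf : Disc n f) (hE : HFrame f E) : ∃ ρ A Y Q, LocAdd f E ρ A Y Q := by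
  obtain ⟨t, d, hdf, hdF⟩ := exists_dat hf hE
  obtain ⟨R, ρ, h⟩ := Dat.exists_unif d
  obtain ⟨A, hA⟩ := Dat.Q_bound h
  have hρ := h.hρ
  have hsub : ball (0 : Cm n) (ρ / 2) ⊆ ball 0 ρ := ball_subset_ball (by linarith)
  have hlt : ∀ v : Cm n, v ∈ ball (0 : Cm n) (ρ / 2) → ‖v‖ < ρ := fun v hv => by
    simpa using hsub hv
  refine ⟨ρ / 2, A, Dat.Y h, Dat.Q h, half_pos hρ, ?_, ?_, ?_, ?_, ?_, ?_, ?_, ?_⟩
  · intro z hz
    rw [Dat.Y_zero h hz, hdf]
  · exact (Dat.Y_cont h).mono (prod_mono le_rfl hsub)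
  · intro z hz v hv e he
    obtain ⟨i, -, hi⟩ := Dat.exists_T (d := d) hz
    exact (Dat.hasFDerivAt_Y h hi (hlt v hv) he (Dat.diff_U h hi (hlt v hv)).hasFDerivAt).differentiableAt
  · intro z hz e he u
    obtain ⟨i, -, hi⟩ := Dat.exists_T (d := d) hz
    have h0 : ‖(0 : Cm n)‖ < ρ := by rw [norm_zero]; exact hρ
    have hY0 : Dat.Y h z 0 = f z := by rw [Dat.Y_zero h hz, hdf]
    have hat : At (d.c i) (f z) := by rw [← hdf]; exact Dat.at_T hi
    have h1 := Dat.hasFDerivAt_Y h hi h0 (e := e) (by rw [hY0]; exact he) (Dat.deriv_U_zero h hi)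
    rw [h1.fderiv, hY0, hdF, ← mc_jacM hat he]
    show (jacM (d.c i) e (f z)).mulVec ((E (d.c i) z).mulVec u) = _
    rw [Matrix.mulVec_mulVec, ← hE.change (d.c i) e z hz hat he]
  · exact (Dat.Q_cont h).mono (prod_mono le_rfl hsub)
  · exact fun z hz => (Dat.Q_diff h hz).mono hsub
  · exact fun z hz v hv => hA z hz v (by simpa using hv)
  · intro v hv hb hw
    exact Dat.hol h hv (fun z hz => hlt _ (hb z hz)) hw

end

theorem locAddStmt : LocAddStmt := fun n X _ _ _ _ _ f E hf hE => local_addition hf hE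

end Vale.Agent.P272.GEO
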