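import Vale.Agent.P272.GEO.SFrame
import Vale.Agent.P272.CT.Calc

/-! # Holomorphic frames of `f^*TX` on the disc: `E = B g` with `B` smooth and `∂̄g = -a g` -/

open scoped Manifold ContDiff ComplexOrder Topology
open Complex Set Filter Metric

set_option linter.all false

noncomputable section

namespace Vale.Agent.P272.GEO.SF

open Vale.Agent.P272.K Vale.Agent.P272.BR Vale.Agent.P272.CT Vale.Agent.P272.GEO

variable {n : ℕ} {X : Type*} [TopologicalSpace X] [ChartedSpace (Cm n) X]
  [IsManifold 𝓘(ℂ, Cm n) ω X]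

lemma entry_continuousOn {S : Set ℂ} {A : ℂ → Mt n} (hA : ContinuousOn A S) (i j : Fin n) :
    ContinuousOn (fun z => A z i j) S := by
  have h1 : Continuous fun M : Mt n => M i j := continuous_id.matrix_elem i j
  exact h1.comp_continuousOn hA

/-- a smooth frame with a gauge transformation gives a holomorphic frame -/
theorem SFrame_mul {f : ℂ → X} (hf : Disc n f) {B : Chart n X → ℂ → Mt n} {a g : ℂ → Mt n}
    (hB : SFrame f B a) (hg : ContinuousOn g KD) (hdet : ∀ z ∈ KD, (g z).det ≠ 0)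
    (hw : ∀ i j, WDb DD (fun z => g z i j) (fun z => -(a z * g z) i j)) :
    HFrame f (fun e z => B e z * g z) := by
  refine ⟨⟨fun e e' z hz he he' => ?_, fun e z hz he => ?_, fun e z hz he => ?_⟩, ?_⟩
  · show B e' z * g z = _ * (B e z * g z)
    rw [hB.change e e' z hz he he', Matrix.mul_assoc]
  · exact (hB.cont e z hz he).mul (hg z hz)
  · rw [Matrix.det_mul]
    exact mul_ne_zero (hB.det e z hz he) (hdet z hz)
  · intro e z hz he i j
    set Ω : Set ℂ := DD ∩ f ⁻¹' e.source with hΩd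
    have hΩ : IsOpen Ω := hf.holo.continuousOn.isOpen_inter_preimage isOpen_ball e.open_source
    have hzΩ : z ∈ Ω := ⟨hz, he.2⟩
    have hat : ∀ ζ ∈ Ω, At e (f ζ) := fun ζ hζ => ⟨he.1, hζ.2⟩
    have hΩK : Ω ⊆ KD := fun ζ hζ => ball_subset_closedBall hζ.1
    have hBc : ∀ i j, ContDiffOn ℝ 1 (fun ζ => B e ζ i j) Ω := fun i j ζ hζ =>
      ((hB.smooth e ζ hζ.1 (hat ζ hζ) i j).of_le (by simp)).contDiffWithinAt
    have hBc0 : ∀ i j, ContinuousOn (fun ζ => B e ζ i j) Ω := fun i j => (hBc i j).continuousOn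
    have hac : ∀ i j, ContinuousOn (fun ζ => a ζ i j) Ω := fun i j =>
      entry_continuousOn (hB.acont.mono hΩK) i j
    have hgc : ∀ i j, ContinuousOn (fun ζ => g ζ i j) Ω := fun i j =>
      entry_continuousOn (hg.mono hΩK) i j
    have hBac : ∀ i j, ContinuousOn (fun ζ => (B e ζ * a ζ) i j) Ω := by
      intro i j
      simp only [Matrix.mul_apply]
      exact continuousOn_finset_sum _ fun k _ => (hBc0 i k).mul (hac k j)
    have hagc : ∀ i j, ContinuousOn (fun ζ => (-(a ζ * g ζ)) i j) Ω := by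
      intro i j
      simp only [Matrix.neg_apply, Matrix.mul_apply]
      exact (continuousOn_finset_sum _ fun k _ => (hac i k).mul (hgc k j)).neg
    have h1 : ∀ i j, WDb Ω (fun ζ => B e ζ i j) fun ζ => (B e ζ * a ζ) i j := by
      intro i j
      refine (WDb.of_contDiffOn hΩ (hBc i j)).congr (fun _ _ => rfl) fun ζ hζ => ?_
      exact hB.dbarB e ζ hζ.1 (hat ζ hζ) i j
    have h2 : ∀ i j, WDb Ω (fun ζ => g ζ i j) fun ζ => (-(a ζ * g ζ)) i j := fun i j =>
      (hw i j).mono inter_subset_left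
    have h3 := WDb.matMul hΩ hBc0 hBac hgc hagc h1 h2 i j
    have h4 : WDb Ω (fun ζ => (B e ζ * g ζ) i j) fun _ => 0 := by
      refine h3.congr (fun _ _ => rfl) fun ζ _ => ?_
      show (B e ζ * a ζ * g ζ + B e ζ * -(a ζ * g ζ)) i j = 0
      rw [Matrix.mul_neg, Matrix.mul_assoc, add_neg_cancel]
      rfl
    have h5 : ContinuousOn (fun ζ => (B e ζ * g ζ) i j) Ω := by
      simp only [Matrix.mul_apply]
      exact continuousOn_finset_sum _ fun k _ => (hBc0 i k).mul (hgc k j)
    exact (WDb.holo hΩ h5 h4).differentiableAt (hΩ.mem_nhds hzΩ)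

/-- **holomorphic frames**, from the frame theorem in one variable -/
theorem exists_HFrame (hG : GaugeStmt) {f : ℂ → X} (hf : Disc n f) :
    ∃ E : Chart n X → ℂ → Mt n, HFrame f E := by
  obtain ⟨B, a, hB⟩ := exists_SFrame hf
  obtain ⟨g, hg, hdet, hw⟩ := hG n a hB.acont
  exact ⟨_, SFrame_mul hf hB hg hdet hw⟩

theorem hframeStmt_of_gauge (hG : GaugeStmt) : HFrameStmt := by
  intro n X _ _ _ _ _ f hf
  exact exists_HFrame hG hf

end Vale.Agent.P272.GEO.SF
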