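import Vale.Agent.P272.GEO.Fixp
import Vale.Agent.P272.GEO.HFrame
import Vale.Agent.P272.GEO.G2
import Vale.Agent.P272.DA.Frame

/-! Block B9: every holomorphic disc which is continuous on the closed disc has a holomorphic
tube. -/

open scoped Manifold ContDiff Topology
open Set Metric

noncomputable section

namespace Vale.Agent.P272.GEO

open Vale.Agent.P272.K Vale.Agent.P272.CT

/-- **B9** from the frame theorem. -/
theorem b9_of_gauge (hG : GaugeStmt) (n : ℕ) (X : Type)
    [TopologicalSpace X] [T2Space X] [CompactSpace X] [ChartedSpace (Cm n) X]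
    [IsManifold 𝓘(ℂ, Cm n) ω X] : HY.B9 n X :=
  b9_of (SF.hframeStmt_of_gauge hG) locAddStmt tubeFix n X

/-- the frame theorem in one variable, from `DA.frame` -/
theorem gaugeStmt : GaugeStmt := by
  intro n a ha
  obtain ⟨g, hg, hdet, hw⟩ := DA.frame a ha
  refine ⟨g, hg.continuousOn, hdet, fun i j => ?_⟩
  have ha' : ContinuousOn a (ball 0 1) := ha.mono ball_subset_closedBall
  have hge : ∀ p q, Continuous fun z => g z p q := fun p q =>
    (continuous_apply q).comp ((continuous_apply p).comp hg)
  have hae : ∀ p q, ContinuousOn (fun z => a z p q) (ball 0 1) := fun p q =>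
    (continuous_apply q).comp_continuousOn ((continuous_apply p).comp_continuousOn ha')
  have hv : ContinuousOn (fun z p => g z p j) (ball 0 1) :=
    continuousOn_pi.2 fun p => (hge p j).continuousOn
  have hq : ContinuousOn (fun z p => -(a z * g z) p j) (ball 0 1) := by
    refine continuousOn_pi.2 fun p => ?_
    simp only [Matrix.mul_apply]
    exact (continuousOn_finsetSum _ fun l _ => (hae p l).mul (hge l j).continuousOn).neg
  exact WDb.apply isOpen_ball hv hq (hw j) i

/-- **B9** -/
theorem b9 (n : ℕ) (X : Type) [TopologicalSpace X] [T2Space X] [CompactSpace X]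
    [ChartedSpace (Cm n) X] [IsManifold 𝓘(ℂ, Cm n) ω X] : HY.B9 n X :=
  b9_of_gauge gaugeStmt n X

end Vale.Agent.P272.GEO
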