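import Mathlib.Analysis.Complex.LocallyUniformLimit
import Mathlib.Analysis.Calculus.FDeriv.Partial
import Mathlib.Analysis.Complex.CauchyIntegral
import Mathlib.Analysis.Normed.Module.FiniteDimension
import Mathlib.Analysis.Complex.Basic

/-! Continuous functions, holomorphic in one group of variables: continuity of the derivative;
separately holomorphic continuous functions of two (groups of) variables are holomorphic. -/

open Set Metric Filter
open scoped Topology

set_option linter.all false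

namespace Vale.Agent.P272.GEO

section
variable {Z F : Type*} [TopologicalSpace Z] [NormedAddCommGroup F] [NormedSpace ℂ F]
  [CompleteSpace F]

theorem tendstoLU_of_continuousOn {S : Set Z} {U : Set ℂ} {G : Z → ℂ → F}
    (hc : ContinuousOn (fun p : Z × ℂ => G p.1 p.2) (S ×ˢ U)) {z0 : Z} (hz0 : z0 ∈ S) :
    TendstoLocallyUniformlyOn G (G z0) (𝓝[S] z0) U := by
  rw [Metric.tendstoLocallyUniformlyOn_iff]
  intro ε hε s1 hs1
  have h1 := hc (z0, s1) ⟨hz0, hs1⟩
  have h2 : ∀ᶠ p : Z × ℂ in 𝓝[S] z0 ×ˢ 𝓝[U] s1, dist (G p.1 p.2) (G z0 s1) < ε / 2 := by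
    have := h1.eventually (Metric.ball_mem_nhds _ (half_pos hε))
    rw [nhdsWithin_prod_eq] at this
    exact this
  obtain ⟨pa, hpa, pb, hpb, hab⟩ := Filter.eventually_prod_iff.1 h2
  refine ⟨{s | pb s}, hpb, ?_⟩
  filter_upwards [hpa] with z hz s hs
  have h3 := hab hz hs
  have h4 := hab (hpa.self_of_nhdsWithin hz0) hs
  simp only at h3 h4
  calc dist (G z0 s) (G z s) ≤ dist (G z0 s) (G z0 s1) + dist (G z s) (G z0 s1) :=
        dist_triangle_right _ _ _
    _ < ε := by linarith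

/-- The derivative in the holomorphic variable is jointly continuous. -/
theorem continuousOn_deriv_of {S : Set Z} {U : Set ℂ} (hU : IsOpen U) {G : Z → ℂ → F}
    (hc : ContinuousOn (fun p : Z × ℂ => G p.1 p.2) (S ×ˢ U))
    (hd : ∀ z ∈ S, DifferentiableOn ℂ (G z) U) :
    ContinuousOn (fun p : Z × ℂ => deriv (G p.1) p.2) (S ×ˢ U) := by
  rintro ⟨z0, s0⟩ ⟨hz0, hs0⟩
  have h1 := tendstoLU_of_continuousOn hc hz0
  have h2 : TendstoLocallyUniformlyOn (deriv ∘ G) (deriv (G z0)) (𝓝[S] z0) U :=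
    h1.deriv (by filter_upwards [self_mem_nhdsWithin] with z hz using hd z hz) hU
  have h3 : ContinuousOn (deriv (G z0)) U := ((hd z0 hz0).deriv hU).continuousOn
  rw [ContinuousWithinAt, Metric.tendsto_nhds]
  intro ε hε
  rw [nhdsWithin_prod_eq]
  rw [Metric.tendstoLocallyUniformlyOn_iff] at h2
  obtain ⟨t, ht, ht'⟩ := h2 (ε / 2) (half_pos hε) s0 hs0
  have h4 : ∀ᶠ s in 𝓝[U] s0, dist (deriv (G z0) s) (deriv (G z0) s0) < ε / 2 :=
    (h3 s0 hs0).eventually (Metric.ball_mem_nhds _ (half_pos hε))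
  have h5 : ∀ᶠ s in 𝓝[U] s0, s ∈ t := ht
  filter_upwards [ht'.prod_mk (h4.and h5)] with p hp
  have h6 := hp.1 p.2 hp.2.2
  have h7 := hp.2.1
  simp only [Function.comp_apply] at h6
  calc dist (deriv (G p.1) p.2) (deriv (G z0) s0)
      ≤ dist (deriv (G z0) p.2) (deriv (G p.1) p.2) + dist (deriv (G z0) p.2) (deriv (G z0) s0) :=
        dist_triangle_left _ _ _
    _ < ε := by linarith

variable {E : Type*} [NormedAddCommGroup E] [NormedSpace ℂ E] [FiniteDimensional ℂ E]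

/-- The derivative in the holomorphic variables is jointly continuous. -/
theorem continuousOn_fderiv_of {S : Set Z} {V : Set E} (hV : IsOpen V) {G : Z → E → F}
    (hc : ContinuousOn (fun p : Z × E => G p.1 p.2) (S ×ˢ V))
    (hd : ∀ z ∈ S, DifferentiableOn ℂ (G z) V) :
    ContinuousOn (fun p : Z × E => fderiv ℂ (G p.1) p.2) (S ×ˢ V) := by
  rw [continuousOn_clm_apply]
  intro u
  rintro ⟨z0, x0⟩ ⟨hz0, hx0⟩
  obtain ⟨r, hr, hrV⟩ := Metric.isOpen_iff.1 hV x0 hx0
  set δ : ℝ := r / 2 / (‖u‖ + 1) with hδ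
  have hδ0 : 0 < δ := by positivity
  have hmem : ∀ x ∈ ball x0 (r / 2), ∀ τ ∈ ball (0 : ℂ) δ, x + τ • u ∈ V := by
    intro x hx τ hτ
    apply hrV
    rw [mem_ball, dist_eq_norm] at hx ⊢
    rw [mem_ball_zero_iff] at hτ
    have h1 : ‖τ • u‖ < r / 2 := by
      rw [norm_smul]
      have h2 : δ * (‖u‖ + 1) = r / 2 := by rw [hδ]; field_simp
      nlinarith [norm_nonneg u, norm_nonneg τ]
    calc ‖x + τ • u - x0‖ = ‖(x - x0) + τ • u‖ := by congr 1; abel
      _ ≤ ‖x - x0‖ + ‖τ • u‖ := norm_add_le _ _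
      _ < r := by linarith
  set S' : Set (Z × E) := S ×ˢ ball x0 (r / 2) with hS'
  set H : Z × E → ℂ → F := fun q τ => G q.1 (q.2 + τ • u) with hH
  have hHc : ContinuousOn (fun p : (Z × E) × ℂ => H p.1 p.2) (S' ×ˢ ball (0 : ℂ) δ) := by
    have h1 : ContinuousOn (fun p : (Z × E) × ℂ => (p.1.1, p.1.2 + p.2 • u))
        (S' ×ˢ ball (0 : ℂ) δ) := by fun_prop
    exact hc.comp h1 (fun p hp => ⟨hp.1.1, hmem _ hp.1.2 _ hp.2⟩)
  have hHd : ∀ q ∈ S', DifferentiableOn ℂ (H q) (ball (0 : ℂ) δ) := by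
    intro q hq τ hτ
    have h1 : DifferentiableAt ℂ (G q.1) (q.2 + τ • u) :=
      (hd q.1 hq.1).differentiableAt (hV.mem_nhds (hmem _ hq.2 _ hτ))
    have h2 : DifferentiableAt ℂ (fun τ : ℂ => q.2 + τ • u) τ := by fun_prop
    exact (DifferentiableAt.comp (g := G q.1) τ h1 h2).differentiableWithinAt
  have h3 := continuousOn_deriv_of isOpen_ball hHc hHd
  have h4 : ∀ q ∈ S', deriv (H q) 0 = fderiv ℂ (G q.1) q.2 u := by
    intro q hq
    have h1 : DifferentiableAt ℂ (G q.1) q.2 := by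
      have := (hd q.1 hq.1).differentiableAt (hV.mem_nhds (hmem _ hq.2 0 (mem_ball_self hδ0)))
      simpa using this
    have h1' : HasFDerivAt (G q.1) (fderiv ℂ (G q.1) q.2) (q.2 + (0 : ℂ) • u) := by
      simpa using h1.hasFDerivAt
    have h2 : HasDerivAt (fun τ : ℂ => q.2 + τ • u) u 0 := by
      simpa using ((hasDerivAt_id (0 : ℂ)).smul_const u).const_add q.2
    exact (HasFDerivAt.comp_hasDerivAt (l := G q.1) (0 : ℂ) h1' h2).deriv
  have h5 : ContinuousWithinAt (fun q : Z × E => fderiv ℂ (G q.1) q.2 u) S' (z0, x0) := by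
    have h6 : ContinuousOn (fun q : Z × E => deriv (H q) 0) S' := by
      have : ContinuousOn (fun q : Z × E => (q, (0 : ℂ))) S' := by fun_prop
      exact h3.comp this (fun q hq => ⟨hq, mem_ball_self hδ0⟩)
    refine (h6 (z0, x0) ⟨hz0, mem_ball_self (by positivity)⟩).congr ?_ ?_
    · intro q hq; exact (h4 q hq).symm
    · exact (h4 _ ⟨hz0, mem_ball_self (by positivity)⟩).symm
  refine h5.mono_of_mem_nhdsWithin ?_
  rw [hS', nhdsWithin_prod_eq]
  exact Filter.prod_mem_prod self_mem_nhdsWithin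
    (mem_nhdsWithin_of_mem_nhds (ball_mem_nhds x0 (by positivity)))

/-- A continuous separately holomorphic function is holomorphic. -/
theorem differentiableAt_joint {U : Set ℂ} {V : Set E} (hU : IsOpen U) (hV : IsOpen V)
    {G : ℂ → E → F} (hc : ContinuousOn (fun p : ℂ × E => G p.1 p.2) (U ×ˢ V))
    (h1 : ∀ x ∈ V, DifferentiableOn ℂ (fun z => G z x) U)
    (h2 : ∀ z ∈ U, DifferentiableOn ℂ (G z) V) {z : ℂ} {x : E} (hz : z ∈ U) (hx : x ∈ V) :
    DifferentiableAt ℂ (fun p : ℂ × E => G p.1 p.2) (z, x) := by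
  have hUV : (U ×ˢ V) ∈ 𝓝 (z, x) := (hU.prod hV).mem_nhds ⟨hz, hx⟩
  have c2 : ContinuousOn (fun p : ℂ × E => fderiv ℂ (G p.1) p.2) (U ×ˢ V) :=
    continuousOn_fderiv_of hV hc h2
  have c1 : ContinuousOn (fun p : ℂ × E => fderiv ℂ (fun z => G z p.2) p.1) (U ×ˢ V) := by
    have hc' : ContinuousOn (fun p : E × ℂ => G p.2 p.1) (V ×ˢ U) := by
      have h3 : ContinuousOn (fun p : E × ℂ => (p.2, p.1)) (V ×ˢ U) := by fun_prop
      exact hc.comp h3 (fun p hp => ⟨hp.2, hp.1⟩)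
    have h4 := continuousOn_fderiv_of (G := fun (x : E) (z : ℂ) => G z x) hU hc' h1
    have h5 : ContinuousOn (fun p : ℂ × E => (p.2, p.1)) (U ×ˢ V) := by fun_prop
    exact h4.comp h5 (fun p hp => ⟨hp.2, hp.1⟩)
  have key := hasStrictFDerivAt_uncurry_coprod (𝕜 := ℂ) (u := (z, x)) (f := G)
    (f₁ := fun z x => fderiv ℂ (fun z => G z x) z) (f₂ := fun z x => fderiv ℂ (G z) x)
    (by
      filter_upwards [hUV] with v hv
      exact ((h1 v.2 hv.2).differentiableAt (hU.mem_nhds hv.1)).hasFDerivAt)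
    (by
      filter_upwards [hUV] with v hv
      exact ((h2 v.1 hv.1).differentiableAt (hV.mem_nhds hv.2)).hasFDerivAt)
    (c1.continuousAt hUV) (c2.continuousAt hUV)
  exact key.hasFDerivAt.differentiableAt

end

end Vale.Agent.P272.GEO
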