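import Vale.Agent.P272.GEO.Defs
import Vale.Agent.P272.GEO.Joint
import Vale.Agent.P272.CT.Weak
import Vale.Agent.P272.HY.Blocks

/-! The holomorphic tube around a closed disc (`HY.B9`), from the holomorphic frame, the local
addition and the contraction in the disc variable. -/

open scoped Manifold ContDiff Topology
open Set Metric Filter

set_option linter.all false

noncomputable section

namespace Vale.Agent.P272.GEO

open Vale.Agent.P272.K Vale.Agent.P272.BR Vale.Agent.P272.CT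

/-- The solutions `v z ζ` of `v(·, ζ) = ζ - T[Q(·, v(·, ζ))]`. Owner: helper851. -/
def TubeFix (n : ℕ) : Prop :=
  ∀ (Q : ℂ → Cm n → Cm n) (ρ A : ℝ), 0 < ρ →
    ContinuousOn (fun p : ℂ × Cm n => Q p.1 p.2) (closedBall 0 1 ×ˢ ball 0 ρ) →
    (∀ z ∈ closedBall (0 : ℂ) 1, DifferentiableOn ℂ (Q z) (ball 0 ρ)) →
    (∀ z ∈ closedBall (0 : ℂ) 1, ∀ v ∈ ball (0 : Cm n) ρ, ‖Q z v‖ ≤ A * ‖v‖ ^ 2) →
    ∃ δ > 0, ∃ v : ℂ → Cm n → Cm n,
      ContinuousOn (fun p : ℂ × Cm n => v p.1 p.2) (closedBall 0 1 ×ˢ ball 0 δ) ∧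
      (∀ z ∈ closedBall (0 : ℂ) 1, DifferentiableOn ℂ (v z) (ball 0 δ) ∧ v z 0 = 0 ∧
        fderiv ℂ (v z) 0 = ContinuousLinearMap.id ℂ (Cm n)) ∧
      ∀ z ∈ closedBall (0 : ℂ) 1, ∀ ζ ∈ ball (0 : Cm n) δ, ‖v z ζ‖ < ρ ∧
        v z ζ = ζ - cauT (fun w => Q w (v w ζ)) z

section
variable {n : ℕ} {X : Type*} [TopologicalSpace X] [ChartedSpace (Cm n) X]

/-- `v = ζ - T q` satisfies `∂̄ v = - q`. -/
theorem wdb_sub_cauT {n : ℕ} {q : ℂ → Cm n} (hq : ContinuousOn q (ball 0 1)) {M : ℝ}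
    (hM : ∀ z ∈ ball (0 : ℂ) 1, ‖q z‖ ≤ M) (ζ : Cm n) :
    WDb (ball 0 1) (fun z => ζ - cauT q z) (fun z => - q z) := by
  have hB : WB 0 M q := WB.of_continuousOn le_rfl hq hM
  have hI := hB.integrableOn le_rfl one_pos
  have h1 := wdb_cauT hI
  have hc : Continuous (cauT q) := hB.continuous_cauT le_rfl one_pos
  have h2 := WDb.comp_holo isOpen_ball hc.continuousOn hq h1 (Φ := fun a : Cm n => ζ - a)
    isOpen_univ (by fun_prop) (fun z _ => mem_univ _)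
  refine h2.congr (fun z _ => rfl) (fun z _ => ?_)
  simp only
  have h3 : HasFDerivAt (fun a : Cm n => ζ - a) (-(ContinuousLinearMap.id ℂ (Cm n)))
      (cauT q z) := by
    simpa using (hasFDerivAt_id (𝕜 := ℂ) (cauT q z)).const_sub ζ
  rw [h3.fderiv]
  simp

theorem tj_eq {f : ℂ → X} {E : Chart n X → ℂ → Matrix (Fin n) (Fin n) ℂ} {ρ A : ℝ}
    {Y : ℂ → Cm n → X} {Q : ℂ → Cm n → Cm n} (h : LocAdd f E ρ A Y Q) {v : ℂ → Cm n → Cm n}
    {δ : ℝ} (hδ : 0 < δ) {z : ℂ} (hz : z ∈ closedBall (0 : ℂ) 1)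
    (hv : DifferentiableOn ℂ (v z) (ball 0 δ)) (hv0 : v z 0 = 0)
    (hv1 : fderiv ℂ (v z) 0 = ContinuousLinearMap.id ℂ (Cm n)) {e : Chart n X}
    (he : At e (f z)) : HY.tj (fun z ζ => Y z (v z ζ)) e z 0 = E e z := by
  have hY0 := h.zero z hz
  have he' : At e (Y z 0) := by rw [hY0]; exact he
  have h1 : DifferentiableAt ℂ (fun u => e (Y z u)) (v z 0) := by
    rw [hv0]
    exact h.holo z hz 0 (mem_ball_self h.pos) e he'
  have h2 : DifferentiableAt ℂ (v z) 0 :=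
    (hv 0 (mem_ball_self hδ)).differentiableAt (ball_mem_nhds _ hδ)
  have h3 : fderiv ℂ (fun ζ => e (Y z (v z ζ))) 0
      = (fderiv ℂ (fun u => e (Y z u)) (v z 0)).comp (fderiv ℂ (v z) 0) :=
    fderiv_comp (g := fun u => e (Y z u)) 0 h1 h2
  ext i j
  simp only [HY.tj, Matrix.of_apply]
  rw [h3, hv1, hv0]
  simp only [ContinuousLinearMap.comp_id]
  rw [h.deriv z hz e he]
  simp

/-- **The holomorphic tube.** -/
theorem holTube_of (hfix : TubeFix n) {f : ℂ → X}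
    {E : Chart n X → ℂ → Matrix (Fin n) (Fin n) ℂ} {ρ A : ℝ} {Y : ℂ → Cm n → X}
    {Q : ℂ → Cm n → Cm n} (h : LocAdd f E ρ A Y Q)
    (hdet : ∀ (e : Chart n X) (z : ℂ), z ∈ closedBall (0 : ℂ) 1 → At e (f z) → (E e z).det ≠ 0) :
    ∃ (δ : ℝ) (F : ℂ → Cm n → X), HY.HolTube f δ F := by
  obtain ⟨δ, hδ, v, hvc, hvz, hve⟩ := hfix Q ρ A h.pos h.qcont h.qholo h.qbound
  have hvmem : ∀ z ∈ closedBall (0 : ℂ) 1, ∀ ζ ∈ ball (0 : Cm n) δ, v z ζ ∈ ball (0 : Cm n) ρ :=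
    fun z hz ζ hζ => mem_ball_zero_iff.2 (hve z hz ζ hζ).1
  have hFc : ContinuousOn (fun p : ℂ × Cm n => Y p.1 (v p.1 p.2))
      (closedBall 0 1 ×ˢ ball 0 δ) := by
    have h1 : ContinuousOn (fun p : ℂ × Cm n => (p.1, v p.1 p.2)) (closedBall 0 1 ×ˢ ball 0 δ) :=
      continuousOn_fst.prodMk hvc
    exact h.cont.comp h1 (fun p hp => ⟨hp.1, hvmem _ hp.1 _ hp.2⟩)
  -- holomorphy in the fibre direction
  have hfib : ∀ z ∈ closedBall (0 : ℂ) 1, ∀ ζ ∈ ball (0 : Cm n) δ, ∀ e : Chart n X,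
      At e (Y z (v z ζ)) → DifferentiableAt ℂ (fun ζ' : Cm n => e (Y z (v z ζ'))) ζ := by
    intro z hz ζ hζ e he
    have h1 : DifferentiableAt ℂ (fun u => e (Y z u)) (v z ζ) :=
      h.holo z hz (v z ζ) (hvmem z hz ζ hζ) e he
    have h2 : DifferentiableAt ℂ (v z) ζ :=
      ((hvz z hz).1 ζ hζ).differentiableAt (isOpen_ball.mem_nhds hζ)
    exact DifferentiableAt.comp (g := fun u => e (Y z u)) ζ h1 h2
  -- holomorphy in the disc direction
  have hdisc : ∀ ζ ∈ ball (0 : Cm n) δ, HolOn n (fun z => Y z (v z ζ)) (ball 0 1) := by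
    intro ζ hζ
    have hvζ : ContinuousOn (fun z => v z ζ) (closedBall 0 1) := by
      have h1 : ContinuousOn (fun z : ℂ => (z, ζ)) (closedBall 0 1) := by fun_prop
      exact hvc.comp h1 (fun z hz => ⟨hz, hζ⟩)
    have hqc : ContinuousOn (fun z => Q z (v z ζ)) (closedBall 0 1) := by
      have h1 : ContinuousOn (fun z : ℂ => (z, v z ζ)) (closedBall 0 1) :=
        continuousOn_id.prodMk hvζ
      exact h.qcont.comp h1 (fun z hz => ⟨hz, hvmem z hz ζ hζ⟩)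
    obtain ⟨M, hM⟩ := (isCompact_closedBall (0 : ℂ) 1).exists_bound_of_continuousOn hqc
    have hw := wdb_sub_cauT (hqc.mono ball_subset_closedBall)
      (fun z hz => hM z (ball_subset_closedBall hz)) ζ
    have hw' : WDb (ball 0 1) (fun z => v z ζ) (fun z => - Q z (v z ζ)) :=
      hw.congr (fun z hz => ((hve z (ball_subset_closedBall hz) ζ hζ).2).symm)
        (fun z _ => rfl)
    exact h.hol (fun z => v z ζ) (hvζ.mono ball_subset_closedBall)
      (fun z hz => hvmem z (ball_subset_closedBall hz) ζ hζ) hw'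
  refine ⟨δ, fun z ζ => Y z (v z ζ), hδ, hFc, ?_, ?_, hfib, ?_⟩
  · intro z hz
    rw [(hvz z hz).2.1, h.zero z hz]
  · intro z hz ζ hζ e he
    -- a product neighbourhood on which the tube stays in the chart
    have hca : ContinuousAt (fun p : ℂ × Cm n => Y p.1 (v p.1 p.2)) (z, ζ) := by
      refine (hFc (z, ζ) ⟨ball_subset_closedBall hz, hζ⟩).continuousAt ?_
      exact prod_mem_nhds (mem_of_superset (isOpen_ball.mem_nhds hz) ball_subset_closedBall)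
        (isOpen_ball.mem_nhds hζ)
    have hev : ∀ᶠ p : ℂ × Cm n in 𝓝 (z, ζ), Y p.1 (v p.1 p.2) ∈ e.source :=
      hca.eventually (e.open_source.mem_nhds he.2)
    obtain ⟨U, hU, V, hV, hUV⟩ := mem_nhds_prod_iff.1 hev
    obtain ⟨U', hU'U, hU', hzU'⟩ := _root_.mem_nhds_iff.1
      (inter_mem hU (isOpen_ball.mem_nhds hz))
    obtain ⟨V', hV'V, hV', hzV'⟩ := _root_.mem_nhds_iff.1
      (inter_mem hV (isOpen_ball.mem_nhds hζ))
    have hat : ∀ z' ∈ U', ∀ ζ' ∈ V', At e (Y z' (v z' ζ')) := fun z' hz' ζ' hζ' =>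
      ⟨he.1, hUV (show (z', ζ') ∈ U ×ˢ V from ⟨(hU'U hz').1, (hV'V hζ').1⟩)⟩
    refine differentiableAt_joint hU' hV' (G := fun z' ζ' => e (Y z' (v z' ζ'))) ?_ ?_ ?_
      hzU' hzV'
    · have h1 : ContinuousOn (fun p : ℂ × Cm n => Y p.1 (v p.1 p.2)) (U' ×ˢ V') :=
        hFc.mono (fun p hp => ⟨ball_subset_closedBall (hU'U hp.1).2, (hV'V hp.2).2⟩)
      exact e.continuousOn.comp h1 (fun p hp => (hat _ hp.1 _ hp.2).2)
    · intro ζ' hζ' z' hz'
      exact ((hdisc ζ' (hV'V hζ').2 z' (hU'U hz').2).2 e (hat _ hz' _ hζ')).differentiableWithinAt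
    · intro z' hz' ζ' hζ'
      exact (hfib z' (ball_subset_closedBall (hU'U hz').2) ζ' (hV'V hζ').2 e
        (hat _ hz' _ hζ')).differentiableWithinAt
  · intro z hz e he
    rw [tj_eq h hδ hz (hvz z hz).1 (hvz z hz).2.1 (hvz z hz).2.2 he]
    exact hdet e z hz he

end

/-- **B9** from the frame, the local addition and the contraction. -/
theorem b9_of (hF : HFrameStmt) (hL : LocAddStmt) (hfix : ∀ n, TubeFix n) (n : ℕ) (X : Type)
    [TopologicalSpace X] [T2Space X] [CompactSpace X] [ChartedSpace (Cm n) X]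
    [IsManifold 𝓘(ℂ, Cm n) ω X] : HY.B9 n X := by
  intro f hc hh
  have hd : Disc n f := ⟨hc, hh⟩
  obtain ⟨E, hE⟩ := hF n X f hd
  obtain ⟨ρ, A, Y, Q, hY⟩ := hL n X f E hd hE
  exact holTube_of (hfix n) hY hE.det

end Vale.Agent.P272.GEO
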