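import Vale.Agent.P272.GEO.Osgood
import Vale.Agent.P272.GEO.Tube
import Vale.Agent.P272.DEF.Disc
import Vale.Agent.P272.CT.Cauchy

/-! `TubeFix`: the solutions `v z ζ` of `v(·, ζ) = ζ - T[Q(·, v(·, ζ))]` depend holomorphically
on `ζ`. -/

open Set Metric Filter
open scoped Topology BoundedContinuousFunction

set_option linter.all false

noncomputable section

namespace Vale.Agent.P272.GEO

open Vale.Agent.P272.K Vale.Agent.P272.CT Vale.Agent.P272.DEF

/-- The Cauchy transform with the trivial weight. -/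
theorem ctProp_cauT {E : Type*} [NormedAddCommGroup E] [NormedSpace ℂ E] [CompleteSpace E] :
    CTProp (cauT : (ℂ → E) → ℂ → E) (fun _ => 1) (cst 0 1 / Real.pi) := by
  have hB : ∀ (F : ℂ → E) (B : ℝ), ContinuousOn F (ball 0 1) →
      (∀ w ∈ ball (0 : ℂ) 1, ‖F w‖ ≤ B * (fun _ : ℂ => (1 : ℝ)) w) → WB 0 B F := by
    intro F B hc hb
    exact WB.of_continuousOn le_rfl hc (fun w hw => by simpa using hb w hw)
  refine ⟨fun _ _ => one_pos, continuousOn_const, ?_, ?_, ?_, ?_, ?_, ?_⟩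
  · exact div_nonneg (cst_nonneg 0 1) Real.pi_pos.le
  · intro F B hc hb
    exact ((hB F B hc hb).continuous_cauT le_rfl one_pos).continuousOn
  · intro F B hc hb z hz
    exact (hB F B hc hb).norm_cauT_le le_rfl one_pos z
  · intro F G B hF hG hFb hGb z hz
    exact WB.cauT_add le_rfl one_pos (hB F B hF hFb) (hB G B hG hGb) z
  · intro c F B hc hb z hz
    exact cauT_smul c F z
  · intro F G h z hz
    rw [cauT_congr h]

theorem tubeFix (n : ℕ) : TubeFix n := by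
  classical
  intro Q ρ A hρ hQc hQh hQb
  have hQ : QProp Q (fun _ => (1 : ℝ)) ρ (max A 0) := by
    refine ⟨hρ, le_max_right _ _, ?_, ?_, ?_⟩
    · exact hQc.mono (prod_mono ball_subset_closedBall subset_rfl)
    · exact fun z hz => hQh z (ball_subset_closedBall hz)
    · intro z hz v hv
      refine (hQb z (ball_subset_closedBall hz) v (mem_ball_zero_iff.2 hv)).trans ?_
      rw [mul_one]
      gcongr
      exact le_max_left _ _
  have h : CTProp (cauT : (ℂ → Cm n) → ℂ → Cm n) (fun _ => 1) (cst 0 1 / Real.pi) := ctProp_cauT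
  set Δ := hQ.data h.κpos h.κcont with hΔ
  have hΔρ : Δ.ρ = ρ := rfl
  set S := h.S with hS
  set δ : ℝ := Δ.rad S / 2 with hδ
  have hrad := Δ.rad_pos S
  have hδ0 : 0 < δ := by positivity
  set c : Cm n → C(KK, Cm n) := fun ζ => ContinuousMap.const KK ζ with hc
  have hcn : ∀ ζ : Cm n, ‖c ζ‖ ≤ ‖ζ‖ := by
    intro ζ
    rw [ContinuousMap.norm_le _ (norm_nonneg _)]
    intro z
    exact le_rfl
  have hcsub : ∀ ζ ζ' : Cm n, ‖c ζ - c ζ'‖ ≤ ‖ζ - ζ'‖ := by
    intro ζ ζ'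
    have : c ζ - c ζ' = c (ζ - ζ') := by ext z; simp [hc]
    rw [this]
    exact hcn _
  have hcm : ∀ ζ ∈ ball (0 : Cm n) δ, ‖c ζ‖ ≤ Δ.rad S / 2 := by
    intro ζ hζ
    exact (hcn ζ).trans (mem_ball_zero_iff.1 hζ).le
  set u : Cm n → C(KK, Cm n) := fun ζ => Δ.V jj S (c ζ) with hu
  have hulip : ∀ ζ ∈ ball (0 : Cm n) δ, ∀ ζ' ∈ ball (0 : Cm n) δ,
      ‖u ζ - u ζ'‖ ≤ 2 * ‖ζ - ζ'‖ := by
    intro ζ hζ ζ' hζ'
    refine (Δ.V_lip jj S (hcm ζ hζ) (hcm ζ' hζ')).trans ?_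
    have := hcsub ζ ζ'
    linarith
  have huc : ContinuousOn u (ball (0 : Cm n) δ) := by
    refine LipschitzOnWith.continuousOn (K := 2) ?_
    refine LipschitzOnWith.of_dist_le_mul fun ζ hζ ζ' hζ' => ?_
    rw [dist_eq_norm, dist_eq_norm]
    exact hulip ζ hζ ζ' hζ'
  have hueq : ∀ ζ ∈ ball (0 : Cm n) δ, u ζ = c ζ - S (Δ.N jj (u ζ)) := fun ζ hζ =>
    Δ.V_eq jj S (hcm ζ hζ)
  have hult : ∀ ζ ∈ ball (0 : Cm n) δ, ‖u ζ‖ < ρ := fun ζ hζ => Δ.V_lt jj S (hcm ζ hζ)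
  have hun : ∀ ζ ∈ ball (0 : Cm n) δ, ‖u ζ‖ ≤ 2 * ‖ζ‖ := by
    intro ζ hζ
    refine (Δ.V_norm2 jj S (hcm ζ hζ)).trans ?_
    have := hcn ζ
    linarith
  -- the second order term
  have hsec : ∀ ζ ∈ ball (0 : Cm n) δ, ‖u ζ - c ζ‖ ≤ ‖S‖ * (Δ.A * 4) * ‖ζ‖ ^ 2 := by
    intro ζ hζ
    have e : u ζ - c ζ = -S (Δ.N jj (u ζ)) := by
      have := hueq ζ hζ
      rw [sub_eq_iff_eq_add, add_comm, ← sub_eq_add_neg]; exact this
    rw [e, norm_neg]
    refine (S.le_opNorm _).trans ?_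
    have h2 := Δ.N_norm jj (Δ.V_lt jj S (hcm ζ hζ))
    have h3 := hun ζ hζ
    have hA := Δ.hA
    calc ‖S‖ * ‖Δ.N jj (u ζ)‖ ≤ ‖S‖ * (Δ.A * (2 * ‖ζ‖) ^ 2) := by
          refine mul_le_mul_of_nonneg_left (h2.trans ?_) (norm_nonneg _)
          gcongr
      _ = ‖S‖ * (Δ.A * 4) * ‖ζ‖ ^ 2 := by ring
  set v : ℂ → Cm n → Cm n := fun z ζ =>
    if hz : z ∈ closedBall (0 : ℂ) 1 then u ζ ⟨z, hz⟩ else 0 with hv
  have hvz : ∀ z (hz : z ∈ closedBall (0 : ℂ) 1), v z = fun ζ => u ζ ⟨z, hz⟩ := by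
    intro z hz
    funext ζ
    simp only [hv, dif_pos hz]
  refine ⟨δ, hδ0, v, ?_, ?_, ?_⟩
  · rw [continuousOn_iff_continuous_domRestrict]
    have h1 : Continuous fun p : (closedBall (0 : ℂ) 1 ×ˢ ball (0 : Cm n) δ : Set (ℂ × Cm n)) =>
        u p.1.2 := by
      have := continuousOn_iff_continuous_domRestrict.1 huc
      exact this.comp (f := fun p : (closedBall (0 : ℂ) 1 ×ˢ ball (0 : Cm n) δ :
        Set (ℂ × Cm n)) => (⟨p.1.2, p.2.2⟩ : ball (0 : Cm n) δ)) (by fun_prop)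
    have h2 : Continuous fun p : (closedBall (0 : ℂ) 1 ×ˢ ball (0 : Cm n) δ : Set (ℂ × Cm n)) =>
        (⟨p.1.1, p.2.1⟩ : KK) := by fun_prop
    have h3 : Continuous fun p : (closedBall (0 : ℂ) 1 ×ˢ ball (0 : Cm n) δ : Set (ℂ × Cm n)) =>
        (u p.1.2) (⟨p.1.1, p.2.1⟩ : KK) := h1.eval h2
    convert h3 using 2 with p
    have hz := p.2.1
    simp only [domRestrict_apply]
    rw [hvz _ hz]
  · intro z hz
    rw [hvz z hz]
    have hd : DifferentiableOn ℂ (fun ζ => u ζ ⟨z, hz⟩) (ball (0 : Cm n) δ) := by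
      refine osgood isOpen_ball ?_ ?_
      · exact (ContinuousMap.evalCLM ℂ (⟨z, hz⟩ : KK) :
          C(KK, Cm n) →L[ℂ] Cm n).continuous.comp_continuousOn huc
      · intro ζ hζ i
        have hU : IsOpen ((fun τ : ℂ => Function.update ζ i τ) ⁻¹' ball (0 : Cm n) δ) :=
          isOpen_ball.preimage (by fun_prop)
        have hζi : ζ i ∈ ((fun τ : ℂ => Function.update ζ i τ) ⁻¹' ball (0 : Cm n) δ) := by
          simp only [mem_preimage, Function.update_eq_self]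
          exact hζ
        have hg : DifferentiableOn ℂ (fun τ : ℂ => c (Function.update ζ i τ))
            ((fun τ : ℂ => Function.update ζ i τ) ⁻¹' ball (0 : Cm n) δ) := by
          have hcl : (fun τ : ℂ => c (Function.update ζ i τ)) = fun τ : ℂ =>
              c (Function.update ζ i 0) + τ • c (Pi.single i 1) := by
            funext τ
            ext z' k
            by_cases hk : k = i
            · subst hk
              simp [hc]
            · simp [hc, Function.update_of_ne hk, Pi.single_eq_of_ne hk]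
          rw [hcl]
          fun_prop
        have h4 : DifferentiableOn ℂ (fun τ : ℂ => u (Function.update ζ i τ))
            ((fun τ : ℂ => Function.update ζ i τ) ⁻¹' ball (0 : Cm n) δ) :=
          Δ.V_hol jj S hU hg (fun τ hτ => hcm _ hτ)
        have h5 : DifferentiableAt ℂ (fun τ : ℂ => u (Function.update ζ i τ)) (ζ i) :=
          (h4 _ hζi).differentiableAt (hU.mem_nhds hζi)
        exact DifferentiableAt.comp (g := (ContinuousMap.evalCLM ℂ (⟨z, hz⟩ : KK) :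
          C(KK, Cm n) →L[ℂ] Cm n)) (ζ i) (ContinuousLinearMap.differentiableAt _) h5
    refine ⟨hd, ?_, ?_⟩
    · have h6 := hun 0 (mem_ball_self hδ0)
      have h7 : u 0 = 0 := by
        rw [norm_zero, mul_zero] at h6
        exact norm_le_zero_iff.1 h6
      simp only [h7]
      rfl
    · refine HasFDerivAt.fderiv ?_
      rw [hasFDerivAt_iff_isLittleO_nhds_zero]
      have h6 := hun 0 (mem_ball_self hδ0)
      have h7 : u 0 = 0 := by
        rw [norm_zero, mul_zero] at h6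
        exact norm_le_zero_iff.1 h6
      have h1 : (fun h : Cm n => u (0 + h) ⟨z, hz⟩ - u 0 ⟨z, hz⟩ -
          (ContinuousLinearMap.id ℂ (Cm n)) h) =O[𝓝 0] fun h : Cm n => ‖h‖ ^ 2 := by
        refine Asymptotics.IsBigO.of_bound (‖S‖ * (Δ.A * 4)) ?_
        filter_upwards [ball_mem_nhds (0 : Cm n) hδ0] with ζ hζ
        rw [zero_add, h7, norm_pow, norm_norm]
        have h8 := (u ζ - c ζ).norm_coe_le_norm ⟨z, hz⟩
        have h9 : (u ζ - c ζ) ⟨z, hz⟩ = u ζ ⟨z, hz⟩ - (0 : C(KK, Cm n)) ⟨z, hz⟩ -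
          (ContinuousLinearMap.id ℂ (Cm n)) ζ := by
          simp [hc]
        rw [← h9]
        exact h8.trans (hsec ζ hζ)
      refine h1.trans_isLittleO ?_
      have := Asymptotics.isLittleO_norm_pow_id (E' := Cm n) one_lt_two
      simpa using this
  · intro z hz ζ hζ
    rw [hvz z hz]
    refine ⟨((u ζ).norm_coe_le_norm ⟨z, hz⟩).trans_lt (hult ζ hζ), ?_⟩
    have h2 := congrArg (fun g : C(KK, Cm n) => g ⟨z, hz⟩) (hueq ζ hζ)
    simp only [ContinuousMap.sub_apply] at h2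
    have hext : ∀ w ∈ ball (0 : ℂ) 1, ext (fun _ => (1 : ℝ)) (Δ.N jj (u ζ)) w
        = Q w (v w ζ) := by
      intro w hw
      have hw' : w ∈ closedBall (0 : ℂ) 1 := ball_subset_closedBall hw
      rw [ext_apply _ _ hw, Δ.N_apply jj (hult ζ hζ), hvz w hw']
      change (((1 : ℝ) : ℝ) : ℂ) • ((((1 : ℝ) : ℝ) : ℂ)⁻¹ • Q w (u ζ ⟨w, hw'⟩)) = _
      simp
    rw [hS, h.S_apply, h.congr _ _ hext z hz] at h2
    exact h2

end Vale.Agent.P272.GEO
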