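import Mathlib.Analysis.Complex.Schwarz
import Mathlib.Analysis.Calculus.InverseFunctionTheorem.ContDiff
import Mathlib.Analysis.Calculus.ContDiff.RestrictScalars
import Mathlib.Topology.MetricSpace.Contracting
import Mathlib.Analysis.Calculus.MeanValue

/-! Analytic lemmas for the local addition along a disc: uniform radii over compact sets,
quantitative inverse function theorem near `0`, regularity of the inverse with parameters,
second order Schwarz lemma. -/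

open scoped ContDiff Topology
open Complex Set Filter Metric

set_option linter.all false

noncomputable section

namespace Vale.Agent.P272.GEO

section unif
variable {A E : Type*} [TopologicalSpace A] [NormedAddCommGroup E]

/-- a local property at the points `(z, 0)`, `z` in a compact set, holds with a uniform radius -/
lemma unif_radius {S : Set A} (hS : IsCompact S) {P : A → E → Prop}
    (h : ∀ z₀ ∈ S, ∀ᶠ p in 𝓝[S ×ˢ univ] ((z₀, 0) : A × E), P p.1 p.2) :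
    ∃ r > 0, ∀ z ∈ S, ∀ u : E, ‖u‖ < r → P z u := by
  have key : ∃ r > 0, ∀ z ∈ S, z ∈ S → ∀ u : E, ‖u‖ < r → P z u := by
    refine hS.induction_on (p := fun s => ∃ r > 0, ∀ z ∈ s, z ∈ S → ∀ u : E, ‖u‖ < r → P z u)
      ⟨1, one_pos, by simp⟩ ?_ ?_ ?_
    · rintro s t hst ⟨r, hr, h⟩
      exact ⟨r, hr, fun z hz => h z (hst hz)⟩
    · rintro s t ⟨r, hr, h⟩ ⟨r', hr', h'⟩
      refine ⟨min r r', lt_min hr hr', fun z hz hzS u hu => ?_⟩
      rcases hz with hz | hz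
      · exact h z hz hzS u (hu.trans_le (min_le_left _ _))
      · exact h' z hz hzS u (hu.trans_le (min_le_right _ _))
    · intro z₀ hz₀
      have h1 := h z₀ hz₀
      rw [nhdsWithin_prod_eq, nhdsWithin_univ] at h1
      obtain ⟨pa, ha, pb, hb, hab⟩ := eventually_prod_iff.1 h1
      obtain ⟨r, hr, hb'⟩ := Metric.eventually_nhds_iff.1 hb
      refine ⟨{z | pa z}, ha, r, hr, fun z hz hzS u hu => ?_⟩
      exact hab hz (hb' (by simpa using hu))
  obtain ⟨r, hr, h⟩ := key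
  exact ⟨r, hr, fun z hz => h z hz hz⟩

end unif

section inv
variable {E : Type*} [NormedAddCommGroup E] {g : E → E} {r : ℝ}

lemma near_id_lower {u u' : E} (h : ‖g u - g u' - (u - u')‖ ≤ 1 / 2 * ‖u - u'‖) :
    1 / 2 * ‖u - u'‖ ≤ ‖g u - g u'‖ := by
  have h1 : ‖u - u'‖ ≤ ‖g u - g u'‖ + ‖g u - g u' - (u - u')‖ := by
    have := norm_sub_le (g u - g u') (g u - g u' - (u - u'))
    rwa [sub_sub_cancel] at this
  linarith

lemma near_id_inj {u u' : E} (h : ‖g u - g u' - (u - u')‖ ≤ 1 / 2 * ‖u - u'‖)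
    (he : g u = g u') : u = u' := by
  have h1 := near_id_lower h
  rw [he, sub_self, norm_zero] at h1
  have h2 : ‖u - u'‖ = 0 := le_antisymm (by linarith) (norm_nonneg _)
  exact sub_eq_zero.1 (norm_eq_zero.1 h2)

lemma near_id_surj [CompleteSpace E] (g0 : g 0 = 0)
    (hg : ∀ u u', ‖u‖ < r → ‖u'‖ < r → ‖g u - g u' - (u - u')‖ ≤ 1 / 2 * ‖u - u'‖)
    {v : E} (hv : ‖v‖ < r / 2) : ∃ u, ‖u‖ ≤ 2 * ‖v‖ ∧ g u = v := by
  set T : E → E := fun u => v - (g u - u) with hT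
  set s : Set E := closedBall 0 (2 * ‖v‖) with hs
  have hsr : ∀ u ∈ s, ‖u‖ < r := fun u hu => by
    have : ‖u‖ ≤ 2 * ‖v‖ := by simpa [hs] using hu
    linarith
  have h0r : ‖(0 : E)‖ < r := by
    have := norm_nonneg v
    rw [norm_zero]; linarith
  have hmaps : MapsTo T s s := by
    intro u hu
    have h1 := hg u 0 (hsr u hu) h0r
    rw [g0, sub_zero, sub_zero] at h1
    have h2 : ‖u‖ ≤ 2 * ‖v‖ := by simpa [hs] using hu
    have h3 : ‖v - (g u - u)‖ ≤ ‖v‖ + ‖g u - u‖ := norm_sub_le _ _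
    have : ‖v - (g u - u)‖ ≤ 2 * ‖v‖ := by linarith
    simpa [hs, hT] using this
  have hlip : LipschitzWith (1 / 2 : NNReal) (hmaps.restrict T s s) := by
    refine LipschitzWith.of_dist_le_mul fun u u' => ?_
    have h1 := hg u u' (hsr u u.2) (hsr u' u'.2)
    have h2 : dist (hmaps.restrict T s s u) (hmaps.restrict T s s u') = ‖g u - g u' - (u - u')‖ := by
      rw [Subtype.dist_eq, dist_eq_norm]
      simp only [MapsTo.val_restrict_apply, hT]
      rw [← norm_neg]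
      congr 1
      abel
    rw [h2, Subtype.dist_eq, dist_eq_norm]
    simpa using h1
  have hcon : ContractingWith (1 / 2 : NNReal) (hmaps.restrict T s s) :=
    ⟨by rw [← NNReal.coe_lt_coe]; norm_num, hlip⟩
  obtain ⟨y, hy, hfix, -⟩ := hcon.exists_fixedPoint' isClosed_closedBall.isComplete hmaps
    (x := 0) (by simp [hs]) (edist_ne_top _ _)
  refine ⟨y, by simpa [hs] using hy, ?_⟩
  have h3 : v - (g y - y) = y := hfix
  have h4 : v = g y := by
    have := congrArg (fun t => t + (g y - y)) h3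
    simpa using this
  exact h4.symm

end inv

section mvt
variable {E : Type*} [NormedAddCommGroup E] [NormedSpace ℂ E]

/-- derivative near the identity -/
lemma near_id_of_deriv {g : E → E} {g' : E → E →L[ℂ] E} {r : ℝ}
    (h : ∀ u, ‖u‖ < r → HasFDerivAt g (g' u) u ∧ ‖g' u - ContinuousLinearMap.id ℂ E‖ ≤ 1 / 2) :
    ∀ u u', ‖u‖ < r → ‖u'‖ < r → ‖g u - g u' - (u - u')‖ ≤ 1 / 2 * ‖u - u'‖ := by
  intro u u' hu hu'
  letI : NormedSpace ℝ E := NormedSpace.restrictScalars ℝ ℂ E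
  have := (convex_ball (0 : E) r).norm_image_sub_le_of_norm_hasFDerivWithin_le' (𝕜 := ℂ)
    (f := g) (f' := g') (φ := ContinuousLinearMap.id ℂ E) (C := 1 / 2) (x := u') (y := u)
    (fun x hx => (h x (by simpa using hx)).1.hasFDerivWithinAt)
    (fun x hx => (h x (by simpa using hx)).2) (by simpa using hu') (by simpa using hu)
  simpa using this

end mvt

section schwarz
variable {E F : Type*} [NormedAddCommGroup E] [NormedSpace ℂ E] [NormedAddCommGroup F]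
  [NormedSpace ℂ F]

lemma schwarz_two {h : E → F} {r M : ℝ} (hr : 0 < r) (hd : DifferentiableOn ℂ h (ball 0 r))
    (hM : ∀ v ∈ ball (0 : E) r, ‖h v‖ ≤ M) (h0 : h 0 = 0)
    (h1 : HasFDerivAt h (0 : E →L[ℂ] F) 0) {v : E} (hv : ‖v‖ < r) :
    ‖h v‖ ≤ M / r ^ 2 * ‖v‖ ^ 2 := by
  have h2 : (fun w => h w - h 0) =o[𝓝 0] (fun w => ‖w - 0‖ ^ 1) := by
    have := h1.isLittleO
    simp only [zero_apply, sub_zero] at this
    simp only [sub_zero, pow_one]
    exact this.norm_right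
  have h3 := Complex.dist_le_mul_div_pow_of_mapsTo_ball_of_isLittleO (n := 1) (c := 0)
    (R₁ := r) (R₂ := M) hd (fun w hw => by simpa [h0] using hM w hw) h2
    (z := v) (by simpa using hv)
  rw [h0, dist_zero_right, dist_zero_right] at h3
  calc ‖h v‖ ≤ M * (‖v‖ / r) ^ (1 + 1) := h3
    _ = M / r ^ 2 * ‖v‖ ^ 2 := by rw [div_pow]; ring

end schwarz

section reg
variable {n : ℕ}

/-- the `∂̄` derivative of a function of the plane -/
def dbc (θ : ℂ → ℂ) (z : ℂ) : ℂ := (1 / 2 : ℂ) * (fderiv ℝ θ z 1 + I * fderiv ℝ θ z I)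

/-- the `∂̄` derivative in the first variable -/
def dbz (Φ : ℂ × (Fin n → ℂ) → (Fin n → ℂ)) (p : ℂ × (Fin n → ℂ)) : Fin n → ℂ :=
  (1 / 2 : ℂ) • (fderiv ℝ Φ p (1, 0) + I • fderiv ℝ Φ p (I, 0))

variable {Φ U : ℂ × (Fin n → ℂ) → (Fin n → ℂ)} {z₀ : ℂ} {u₀ v₀ : Fin n → ℂ}

lemma fderiv_fst_snd {T : ℂ × (Fin n → ℂ) →L[ℝ] (Fin n → ℂ)} (a : ℂ) (b : Fin n → ℂ) :
    T (a, b) = T (a, 0) + T (0, b) := by
  rw [← map_add]; simp

/-- the inverse with parameters is `C¹` -/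
lemma inv_c1 (hΦ : ContDiffAt ℝ 1 Φ (z₀, u₀)) (L : (Fin n → ℂ) ≃L[ℂ] (Fin n → ℂ))
    (hL : ∀ b, fderiv ℝ Φ (z₀, u₀) (0, b) = L b) (h0 : Φ (z₀, u₀) = v₀)
    (hUΦ : ∀ᶠ p in 𝓝 (z₀, u₀), U (p.1, Φ p) = p.2) : ContDiffAt ℝ 1 U (z₀, v₀) := by
  set T := fderiv ℝ Φ (z₀, u₀) with hT
  set Lr : (Fin n → ℂ) →L[ℝ] (Fin n → ℂ) := (L.symm : (Fin n → ℂ) →L[ℂ] (Fin n → ℂ)).restrictScalars ℝ
  have hd : HasFDerivAt Φ T (z₀, u₀) := (hΦ.differentiableAt one_ne_zero).hasFDerivAt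
  set Ψ : ℂ × (Fin n → ℂ) → ℂ × (Fin n → ℂ) := fun p => (p.1, Φ p) with hΨ
  have hΨc : ContDiffAt ℝ 1 Ψ (z₀, u₀) := contDiffAt_fst.prodMk hΦ
  let Te : (ℂ × (Fin n → ℂ)) ≃L[ℝ] (ℂ × (Fin n → ℂ)) :=
    ContinuousLinearEquiv.equivOfInverse ((ContinuousLinearMap.fst ℝ ℂ (Fin n → ℂ)).prod T)
      ((ContinuousLinearMap.fst ℝ ℂ (Fin n → ℂ)).prod
        (Lr.comp ((ContinuousLinearMap.snd ℝ ℂ (Fin n → ℂ)) -
          T.comp ((ContinuousLinearMap.inl ℝ ℂ (Fin n → ℂ)).comp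
            (ContinuousLinearMap.fst ℝ ℂ (Fin n → ℂ))))))
      (by
        rintro ⟨a, b⟩
        refine Prod.ext rfl ?_
        show L.symm (T (a, b) - T (a, 0)) = b
        rw [fderiv_fst_snd a b, add_sub_cancel_left, hL, L.symm_apply_apply])
      (by
        rintro ⟨a, b⟩
        refine Prod.ext rfl ?_
        show T (a, L.symm (b - T (a, 0))) = b
        rw [fderiv_fst_snd, hL, L.apply_symm_apply, add_sub_cancel])
  have hΨd : HasFDerivAt Ψ (Te : (ℂ × (Fin n → ℂ)) →L[ℝ] (ℂ × (Fin n → ℂ))) (z₀, u₀) :=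
    hasFDerivAt_fst.prodMk hd
  have hloc := hΨc.to_localInverse hΨd one_ne_zero
  have hstr := hΨc.hasStrictFDerivAt' hΨd one_ne_zero
  have huni := hstr.localInverse_unique (g := fun p => (p.1, U p)) (by
    filter_upwards [hUΦ] with p hp
    exact Prod.ext rfl hp)
  have hΨ0 : Ψ (z₀, u₀) = (z₀, v₀) := Prod.ext rfl h0
  rw [hΨ0] at hloc huni
  have h1 : ContDiffAt ℝ 1 (fun p => (p.1, U p)) (z₀, v₀) := hloc.congr_of_eventuallyEq huni
  exact h1.snd

/-- the differential of the inverse with parameters -/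
lemma inv_deriv (hΦ : DifferentiableAt ℝ Φ (z₀, u₀)) (hU : DifferentiableAt ℝ U (z₀, v₀))
    (h0 : U (z₀, v₀) = u₀) (hΦU : ∀ᶠ p in 𝓝 (z₀, v₀), Φ (p.1, U p) = p.2) (a : ℂ)
    (b : Fin n → ℂ) : fderiv ℝ Φ (z₀, u₀) (a, fderiv ℝ U (z₀, v₀) (a, b)) = b := by
  have h1 : HasFDerivAt (fun p : ℂ × (Fin n → ℂ) => (p.1, U p))
      ((ContinuousLinearMap.fst ℝ ℂ (Fin n → ℂ)).prod (fderiv ℝ U (z₀, v₀))) (z₀, v₀) :=
    hasFDerivAt_fst.prodMk hU.hasFDerivAt
  have h2 : HasFDerivAt Φ (fderiv ℝ Φ (z₀, u₀)) ((fun p : ℂ × (Fin n → ℂ) => (p.1, U p)) (z₀, v₀)) := by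
    simp only [h0]
    exact hΦ.hasFDerivAt
  have h3 := h2.comp (z₀, v₀) h1
  have h4 : HasFDerivAt (fun p : ℂ × (Fin n → ℂ) => p.2)
      ((fderiv ℝ Φ (z₀, u₀)).comp ((ContinuousLinearMap.fst ℝ ℂ (Fin n → ℂ)).prod
        (fderiv ℝ U (z₀, v₀)))) (z₀, v₀) :=
    h3.congr_of_eventuallyEq (by filter_upwards [hΦU] with p hp; exact hp.symm)
  have h5 := h4.unique hasFDerivAt_snd
  have h6 := congrArg (fun T => T (a, b)) h5
  simpa using h6

/-- the `∂̄` equation for the inverse with parameters -/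
lemma inv_dbz (hΦ : DifferentiableAt ℝ Φ (z₀, u₀)) (hU : DifferentiableAt ℝ U (z₀, v₀))
    (L : (Fin n → ℂ) ≃L[ℂ] (Fin n → ℂ)) (hL : ∀ b, fderiv ℝ Φ (z₀, u₀) (0, b) = L b)
    (h0 : U (z₀, v₀) = u₀) (hΦU : ∀ᶠ p in 𝓝 (z₀, v₀), Φ (p.1, U p) = p.2) :
    dbz U (z₀, v₀) + fderiv ℝ U (z₀, v₀) (0, dbz Φ (z₀, u₀)) = 0 := by
  have key := inv_deriv hΦ hU h0 hΦU
  have h1 : ∀ a, L (fderiv ℝ U (z₀, v₀) (a, 0)) = - fderiv ℝ Φ (z₀, u₀) (a, 0) := by
    intro a
    have := key a 0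
    rw [fderiv_fst_snd, hL] at this
    exact eq_neg_of_add_eq_zero_right this
  have h2 : ∀ b, L (fderiv ℝ U (z₀, v₀) (0, b)) = b := by
    intro b
    have := key 0 b
    rwa [hL] at this
  apply L.injective
  rw [map_add, h2, map_zero]
  unfold dbz
  rw [map_smul, map_add, map_smul, h1, h1]
  module

/-- `∂̄_z` of a product of a smooth function of `z` and a holomorphic function -/
lemma dbz_smul {θ : ℂ → ℂ} {W : ℂ × (Fin n → ℂ) → (Fin n → ℂ)} {p : ℂ × (Fin n → ℂ)}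
    (hθ : DifferentiableAt ℝ θ p.1) (hW : DifferentiableAt ℂ W p) :
    dbz (fun q => θ q.1 • W q) p = dbc θ p.1 • W p := by
  have h1 : HasFDerivAt (fun q : ℂ × (Fin n → ℂ) => θ q.1)
      ((fderiv ℝ θ p.1).comp (ContinuousLinearMap.fst ℝ ℂ (Fin n → ℂ))) p :=
    hθ.hasFDerivAt.comp p hasFDerivAt_fst
  have h2 : HasFDerivAt W ((fderiv ℂ W p).restrictScalars ℝ) p :=
    hW.hasFDerivAt.restrictScalars ℝ
  have h3 := h1.smul h2
  have h4 : fderiv ℝ (fun q => θ q.1 • W q) p = _ := h3.fderiv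
  unfold dbz
  rw [h4]
  have h5 : fderiv ℂ W p (I, 0) = I • fderiv ℂ W p (1, 0) := by
    rw [← map_smul]; simp
  simp only [add_apply, smul_apply, ContinuousLinearMap.coe_restrictScalars',
    ContinuousLinearMap.smulRight_apply, ContinuousLinearMap.comp_apply,
    ContinuousLinearMap.coe_fst', h5]
  unfold dbc
  rw [smul_smul (θ p.1) I, smul_add, smul_add I, smul_smul I, smul_smul I]
  have hI : I * (θ p.1 * I) = - θ p.1 := by
    linear_combination θ p.1 * Complex.I_mul_I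
  rw [hI]
  module

end reg

end Vale.Agent.P272.GEO
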