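import Vale.Agent.P272.GEO.Defs
import Vale.Agent.P272.GEO.G2a
import Mathlib.Analysis.Calculus.ContDiff.Operations
import Mathlib.Analysis.Calculus.FDeriv.Analytic
import Mathlib.Analysis.Complex.CauchyIntegral

/-! The data of the logarithm along a disc and its regularity. -/

open scoped Manifold ContDiff Topology
open Complex Set Filter Metric

set_option linter.all false

noncomputable section

namespace Vale.Agent.P272.GEO

open Vale.Agent.P272.K Vale.Agent.P272.BR Vale.Agent.P272.CT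

/-- the closed unit disc -/
abbrev KK : Set ℂ := closedBall 0 1
/-- the open unit disc -/
abbrev DD : Set ℂ := ball 0 1

/-- A disc with finitely many charts, a partition of unity of the closed disc subordinate to them,
and the matrices of a holomorphic frame in these charts. -/
structure Dat (n : ℕ) (X : Type*) [TopologicalSpace X] [ChartedSpace (Cm n) X] (ι : Type*)
    [Fintype ι] where
  f : ℂ → X
  c : ι → Chart n X
  θ : ι → ℂ → ℂ
  F : ι → ℂ → Cm n →L[ℂ] Cm n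
  hf : ContinuousOn f KK
  hfd : HolOn n f DD
  hc : ∀ i, c i ∈ atlas (Cm n) X
  hθ : ∀ i, ContDiff ℝ ∞ (θ i)
  hsum : ∀ z ∈ KK, ∑ i, θ i z = 1
  hs : ∀ i, ∀ z ∈ KK, z ∈ tsupport (θ i) → f z ∈ (c i).source
  hFu : ∀ i, ∀ z ∈ KK, z ∈ tsupport (θ i) → IsUnit (F i z)
  hFc : ∀ i, ∀ z ∈ KK, z ∈ tsupport (θ i) → ContinuousWithinAt (F i) KK z
  hFd : ∀ i, ∀ z ∈ DD, z ∈ tsupport (θ i) → ContDiffAt ℂ 1 (F i) z
  hco : ∀ i k, ∀ z ∈ KK, z ∈ tsupport (θ i) → z ∈ tsupport (θ k) →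
    F k z = (fderiv ℂ (fun x => c k ((c i).symm x)) (c i (f z))).comp (F i z)

namespace Dat

variable {n : ℕ} {X : Type*} [TopologicalSpace X] [ChartedSpace (Cm n) X] {ι : Type*} [Fintype ι]
  (d : Dat n X ι)

/-- the closed piece of index `i` -/
def T (i : ι) : Set ℂ := KK ∩ tsupport (d.θ i)

/-- inverse of the frame -/
def G (i : ι) (z : ℂ) : Cm n →L[ℂ] Cm n := Ring.inverse (d.F i z)

/-- the point with frame coordinate `u`, in the chart `i` -/
def x (i : ι) (p : ℂ × Cm n) : Cm n := d.c i (d.f p.1) + d.F i p.1 p.2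

/-- the point with frame coordinate `u` in the chart `i` -/
def P (i : ι) (p : ℂ × Cm n) : X := (d.c i).symm (d.x i p)

/-- frame coordinate of `y` in the chart `i` -/
def w (i : ι) (z : ℂ) (y : X) : Cm n := d.G i z (d.c i y - d.c i (d.f z))

/-- the transition of frame coordinates -/
def W (k i : ι) (p : ℂ × Cm n) : Cm n := d.w k p.1 (d.P i p)

/-- chart transition -/
def τ (k i : ι) (a : Cm n) : Cm n := d.c k ((d.c i).symm a)

/-- the logarithm -/
def ell (z : ℂ) (y : X) : Cm n := ∑ k, d.θ k z • d.w k z y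

/-- the logarithm in the frame coordinate `i` -/
def Φ (i : ι) (p : ℂ × Cm n) : Cm n := ∑ k, d.θ k p.1 • d.W k i p

/-- the derivative of `W` in `u` -/
def DW (k i : ι) (p : ℂ × Cm n) : Cm n →L[ℂ] Cm n :=
  (d.G k p.1).comp ((fderiv ℂ (d.τ k i) (d.x i p)).comp (d.F i p.1))

/-- the derivative of `Φ` in `u` -/
def DΦ (i : ι) (p : ℂ × Cm n) : Cm n →L[ℂ] Cm n := ∑ k, d.θ k p.1 • d.DW k i p

lemma Φ_eq (i : ι) (p : ℂ × Cm n) : d.Φ i p = d.ell p.1 (d.P i p) := rfl

variable {d} {i k : ι} {z : ℂ} {u : Cm n}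

lemma isCompact_T (i : ι) : IsCompact (d.T i) :=
  (isCompact_closedBall (0 : ℂ) 1).inter_right (isClosed_tsupport _)

lemma at_T (hz : z ∈ d.T i) : At (d.c i) (d.f z) := ⟨d.hc i, d.hs i z hz.1 hz.2⟩

lemma GF (hz : z ∈ d.T i) (v : Cm n) : d.G i z (d.F i z v) = v := by
  have h := Ring.inverse_mul_cancel (d.F i z) (d.hFu i z hz.1 hz.2)
  exact congrArg (fun T => T v) h

lemma FG (hz : z ∈ d.T i) (v : Cm n) : d.F i z (d.G i z v) = v := by
  have h := Ring.mul_inverse_cancel (d.F i z) (d.hFu i z hz.1 hz.2)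
  exact congrArg (fun T => T v) h

lemma cont_G (hz : z ∈ d.T i) : ContinuousWithinAt (d.G i) KK z := by
  obtain ⟨U, hU⟩ := d.hFu i z hz.1 hz.2
  have h1 : ContinuousAt Ring.inverse (d.F i z) := by
    rw [← hU]; exact NormedRing.inverse_continuousAt U
  exact h1.comp_continuousWithinAt (d.hFc i z hz.1 hz.2)

lemma diff_G (hz : z ∈ d.T i) (hzD : z ∈ DD) : ContDiffAt ℂ 1 (d.G i) z := by
  obtain ⟨U, hU⟩ := d.hFu i z hz.1 hz.2
  have h1 : ContDiffAt ℂ 1 Ring.inverse (d.F i z) := by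
    rw [← hU]; exact contDiffAt_ringInverse ℂ U
  exact h1.comp z (d.hFd i z hzD hz.2)

lemma cont_cf (hz : z ∈ d.T i) : ContinuousWithinAt (fun z => d.c i (d.f z)) KK z :=
  ((d.c i).continuousAt (at_T hz).2).comp_continuousWithinAt (d.hf z hz.1)

lemma cf_nhds (hz : z ∈ DD) (hat : At (d.c i) (d.f z)) : ContDiffAt ℂ 1 (fun z => d.c i (d.f z)) z := by
  have h1 : ∀ᶠ w in 𝓝 z, DifferentiableAt ℂ (fun z => d.c i (d.f z)) w := by
    have h2 := HolAt.eventually_at (d.hfd z hz).1 hat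
    filter_upwards [h2, isOpen_ball.mem_nhds hz] with w hw hwD
    exact (d.hfd w hwD).2 _ hw
  have h3 : AnalyticAt ℂ (fun z => d.c i (d.f z)) z :=
    Complex.analyticAt_iff_eventually_differentiableAt.2 h1
  exact h3.contDiffAt

lemma cont_x (hz : z ∈ d.T i) : ContinuousWithinAt (d.x i) (KK ×ˢ univ) (z, u) := by
  have h1 : ContinuousWithinAt (fun p : ℂ × Cm n => d.c i (d.f p.1)) (KK ×ˢ univ) (z, u) :=
    ContinuousWithinAt.comp (t := KK) (g := fun z => d.c i (d.f z)) (f := Prod.fst)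
      (x := ((z, u) : ℂ × Cm n)) (cont_cf hz)
      continuous_fst.continuousWithinAt (fun p hp => hp.1)
  have h2 : ContinuousWithinAt (fun p : ℂ × Cm n => d.F i p.1) (KK ×ˢ univ) (z, u) :=
    ContinuousWithinAt.comp (t := KK) (g := d.F i) (f := Prod.fst) (x := ((z, u) : ℂ × Cm n))
      (d.hFc i z hz.1 hz.2) continuous_fst.continuousWithinAt (fun p hp => hp.1)
  exact h1.add (h2.clm_apply continuous_snd.continuousWithinAt)

lemma diff_x (hz : z ∈ d.T i) (hzD : z ∈ DD) : ContDiffAt ℂ 1 (d.x i) (z, u) := by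
  have h1 : ContDiffAt ℂ 1 (fun p : ℂ × Cm n => d.c i (d.f p.1)) (z, u) :=
    ContDiffAt.comp (z, u) (g := fun z => d.c i (d.f z)) (f := Prod.fst) (cf_nhds hzD (at_T hz))
      contDiffAt_fst
  have h2 : ContDiffAt ℂ 1 (fun p : ℂ × Cm n => d.F i p.1) (z, u) :=
    ContDiffAt.comp (z, u) (g := d.F i) (f := Prod.fst) (d.hFd i z hzD hz.2) contDiffAt_fst
  exact h1.add (h2.clm_apply contDiffAt_snd)

lemma deriv_x (i : ι) (z : ℂ) (u : Cm n) : HasFDerivAt (fun u => d.x i (z, u)) (d.F i z) u :=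
  ((d.F i z).hasFDerivAt (x := u)).const_add (d.c i (d.f z))

lemma x_zero (i : ι) (z : ℂ) : d.x i (z, 0) = d.c i (d.f z) := by simp [x]

lemma P_zero (hz : z ∈ d.T i) : d.P i (z, 0) = d.f z := by
  unfold P; rw [x_zero]; exact (at_T hz).left_inv

/-- good points -/
def Gd (d : Dat n X ι) (k i : ι) (p : ℂ × Cm n) : Prop :=
  d.x i p ∈ (d.c i).target ∧ d.P i p ∈ (d.c k).source

lemma Gd.at (h : d.Gd k i (z, u)) : At (d.c k) (d.P i (z, u)) := ⟨d.hc k, h.2⟩
lemma Gd.at' (h : d.Gd k i (z, u)) : At (d.c i) (d.P i (z, u)) := At.of_target (d.hc i) h.1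

lemma Gd.cx (h : d.Gd k i (z, u)) : d.c i (d.P i (z, u)) = d.x i (z, u) := (d.c i).right_inv h.1

lemma cont_P (hz : z ∈ d.T i) (h : d.x i (z, u) ∈ (d.c i).target) :
    ContinuousWithinAt (d.P i) (KK ×ˢ univ) (z, u) :=
  ContinuousAt.comp_continuousWithinAt (g := (d.c i).symm) ((d.c i).continuousAt_symm h) (cont_x hz)

lemma Gd.eventually (hz : z ∈ d.T i) (h : d.Gd k i (z, u)) :
    ∀ᶠ p in 𝓝[KK ×ˢ univ] (z, u), d.Gd k i p := by
  have h1 := (cont_x (u := u) hz).eventually ((d.c i).open_target.mem_nhds h.1)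
  have h2 := (cont_P hz h.1).eventually ((d.c k).open_source.mem_nhds h.2)
  filter_upwards [h1, h2] with p hp hp'
  exact ⟨hp, hp'⟩

lemma gd_zero (hz : z ∈ d.T i) (hz' : z ∈ d.T k) : d.Gd k i (z, 0) := by
  refine ⟨?_, ?_⟩
  · rw [x_zero]; exact (at_T hz).mem_target
  · rw [P_zero hz]; exact (at_T hz').2

section man
variable [IsManifold 𝓘(ℂ, Cm n) ω X]

lemma Gd.trans (h : d.Gd k i (z, u)) : ContDiffAt ℂ ω (d.τ k i) (d.x i (z, u)) := by
  have := transition h.at' h.at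
  rwa [h.cx] at this

lemma cont_W (hz : z ∈ d.T i) (hz' : z ∈ d.T k) (h : d.Gd k i (z, u)) :
    ContinuousWithinAt (d.W k i) (KK ×ˢ univ) (z, u) := by
  have h1 : ContinuousWithinAt (fun p : ℂ × Cm n => d.G k p.1) (KK ×ˢ univ) (z, u) :=
    ContinuousWithinAt.comp (t := KK) (g := d.G k) (f := Prod.fst) (x := ((z, u) : ℂ × Cm n))
      (cont_G hz') continuous_fst.continuousWithinAt (fun p hp => hp.1)
  have h2 : ContinuousWithinAt (fun p : ℂ × Cm n => d.c k (d.f p.1)) (KK ×ˢ univ) (z, u) :=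
    ContinuousWithinAt.comp (t := KK) (g := fun z => d.c k (d.f z)) (f := Prod.fst)
      (x := ((z, u) : ℂ × Cm n)) (cont_cf hz')
      continuous_fst.continuousWithinAt (fun p hp => hp.1)
  have h3 : ContinuousWithinAt (fun p => d.c k (d.P i p)) (KK ×ˢ univ) (z, u) :=
    ((d.c k).continuousAt h.2).comp_continuousWithinAt (cont_P hz h.1)
  exact h1.clm_apply (h3.sub h2)

lemma cont_DW (hz : z ∈ d.T i) (hz' : z ∈ d.T k) (h : d.Gd k i (z, u)) :
    ContinuousWithinAt (d.DW k i) (KK ×ˢ univ) (z, u) := by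
  have h1 : ContinuousWithinAt (fun p : ℂ × Cm n => d.G k p.1) (KK ×ˢ univ) (z, u) :=
    ContinuousWithinAt.comp (t := KK) (g := d.G k) (f := Prod.fst) (x := ((z, u) : ℂ × Cm n))
      (cont_G hz') continuous_fst.continuousWithinAt (fun p hp => hp.1)
  have h2 : ContinuousWithinAt (fun p : ℂ × Cm n => d.F i p.1) (KK ×ˢ univ) (z, u) :=
    ContinuousWithinAt.comp (t := KK) (g := d.F i) (f := Prod.fst) (x := ((z, u) : ℂ × Cm n))
      (d.hFc i z hz.1 hz.2) continuous_fst.continuousWithinAt (fun p hp => hp.1)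
  have h3 : ContinuousAt (fderiv ℂ (d.τ k i)) (d.x i (z, u)) :=
    ((h.trans.fderiv_right (m := 0) (by simp)).continuousAt)
  have h4 : ContinuousWithinAt (fun p => fderiv ℂ (d.τ k i) (d.x i p)) (KK ×ˢ univ) (z, u) :=
    h3.comp_continuousWithinAt (cont_x hz)
  exact h1.clm_comp (h4.clm_comp h2)

lemma deriv_W (h : d.Gd k i (z, u)) :
    HasFDerivAt (fun u => d.W k i (z, u)) (d.DW k i (z, u)) u := by
  have h1 : HasFDerivAt (d.τ k i) (fderiv ℂ (d.τ k i) (d.x i (z, u))) (d.x i (z, u)) :=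
    (h.trans.differentiableAt (by simp)).hasFDerivAt
  have h2 := h1.comp u (deriv_x i z u)
  have h3 := (h2.sub_const (d.c k (d.f z)))
  exact (d.G k z).hasFDerivAt.comp u h3

lemma diff_W (hz : z ∈ d.T i) (hz' : z ∈ d.T k) (hzD : z ∈ DD) (h : d.Gd k i (z, u)) :
    ContDiffAt ℂ 1 (d.W k i) (z, u) := by
  have h1 : ContDiffAt ℂ 1 (fun p : ℂ × Cm n => d.G k p.1) (z, u) :=
    ContDiffAt.comp (z, u) (g := d.G k) (f := Prod.fst) (diff_G hz' hzD) contDiffAt_fst
  have h2 : ContDiffAt ℂ 1 (fun p : ℂ × Cm n => d.c k (d.f p.1)) (z, u) :=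
    ContDiffAt.comp (z, u) (g := fun z => d.c k (d.f z)) (f := Prod.fst) (cf_nhds hzD (at_T hz'))
      contDiffAt_fst
  have h3 : ContDiffAt ℂ 1 (fun p : ℂ × Cm n => d.τ k i (d.x i p)) (z, u) :=
    ContDiffAt.comp (z, u) (g := d.τ k i) (f := d.x i) (h.trans.of_le (by exact le_top))
      (diff_x hz hzD)
  exact h1.clm_apply (h3.sub h2)

lemma W_zero (hz : z ∈ d.T i) : d.W k i (z, 0) = 0 := by
  unfold W w
  rw [P_zero hz, sub_self, map_zero]

lemma DW_zero (hz : z ∈ d.T i) (hz' : z ∈ d.T k) : d.DW k i (z, 0) = 1 := by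
  unfold DW
  rw [x_zero]
  have h := d.hco i k z hz.1 hz.2 hz'.2
  show (d.G k z).comp ((fderiv ℂ (fun x => d.c k ((d.c i).symm x)) (d.c i (d.f z))).comp (d.F i z)) = 1
  rw [← h]
  ext1 v
  exact GF hz' v

/-- all charts of the pieces containing the point are good -/
def AG (d : Dat n X ι) (i : ι) (p : ℂ × Cm n) : Prop :=
  d.x i p ∈ (d.c i).target ∧ ∀ k, p.1 ∈ tsupport (d.θ k) → d.P i p ∈ (d.c k).source

lemma AG.gd (h : d.AG i (z, u)) (hz : z ∈ d.T k) : d.Gd k i (z, u) := ⟨h.1, h.2 k hz.2⟩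

lemma AG.eventually (hz : z ∈ d.T i) (h : d.AG i (z, u)) :
    ∀ᶠ p in 𝓝[KK ×ˢ univ] (z, u), d.AG i p := by
  have h1 := (cont_x (u := u) hz).eventually ((d.c i).open_target.mem_nhds h.1)
  have h2 : ∀ k, ∀ᶠ p in 𝓝[KK ×ˢ univ] (z, u), p.1 ∈ tsupport (d.θ k) →
      d.P i p ∈ (d.c k).source := by
    intro k
    by_cases hk : z ∈ tsupport (d.θ k)
    · filter_upwards [Gd.eventually (k := k) hz (h.gd ⟨hz.1, hk⟩)] with p hp _ using hp.2
    · have h3 : ∀ᶠ p in 𝓝[KK ×ˢ univ] (z, u), p.1 ∉ tsupport (d.θ k) := by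
        have : ContinuousWithinAt (Prod.fst : ℂ × Cm n → ℂ) (KK ×ˢ univ) (z, u) :=
          continuous_fst.continuousWithinAt
        exact this.eventually ((isClosed_tsupport _).isOpen_compl.mem_nhds hk)
      filter_upwards [h3] with p hp hp' using absurd hp' hp
  filter_upwards [h1, eventually_all.2 h2] with p hp hp'
  exact ⟨hp, hp'⟩

lemma ag_zero (hz : z ∈ d.T i) : d.AG i (z, 0) :=
  ⟨(gd_zero hz hz).1, fun k hk => (gd_zero hz ⟨hz.1, hk⟩).2⟩

lemma theta_ev (hk : z ∉ tsupport (d.θ k)) : ∀ᶠ ζ in 𝓝 z, d.θ k ζ = 0 :=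
  notMem_tsupport_iff_eventuallyEq.1 hk

lemma theta_ev' (hk : z ∉ tsupport (d.θ k)) (s : Set (ℂ × Cm n)) :
    ∀ᶠ p in 𝓝[s] (z, u), d.θ k p.1 = 0 := by
  have : ContinuousWithinAt (Prod.fst : ℂ × Cm n → ℂ) s (z, u) :=
    continuous_fst.continuousWithinAt
  exact this.eventually (theta_ev hk)

lemma theta_cont (k : ι) : Continuous (fun p : ℂ × Cm n => d.θ k p.1) :=
  (d.hθ k).continuous.comp continuous_fst

lemma cont_Φ (hz : z ∈ d.T i) (h : d.AG i (z, u)) :
    ContinuousWithinAt (d.Φ i) (KK ×ˢ univ) (z, u) := by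
  have key : ∀ k, ContinuousWithinAt (fun p => d.θ k p.1 • d.W k i p) (KK ×ˢ univ) (z, u) := by
    intro k
    by_cases hk : z ∈ tsupport (d.θ k)
    · exact (theta_cont k).continuousWithinAt.smul (cont_W hz ⟨hz.1, hk⟩ (h.gd ⟨hz.1, hk⟩))
    · refine (continuousWithinAt_const (b := (0 : Cm n))).congr_of_eventuallyEq ?_ ?_
      · filter_upwards [theta_ev' hk _] with p hp
        rw [hp, zero_smul]
      · have := (theta_ev hk).self_of_nhds
        simp [this]
  have h2 : ContinuousWithinAt (fun p => ∑ k, d.θ k p.1 • d.W k i p) (KK ×ˢ univ) (z, u) :=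
    tendsto_finsetSum _ fun k _ => key k
  exact h2

lemma cont_DΦ (hz : z ∈ d.T i) (h : d.AG i (z, u)) :
    ContinuousWithinAt (d.DΦ i) (KK ×ˢ univ) (z, u) := by
  have key : ∀ k, ContinuousWithinAt (fun p => d.θ k p.1 • d.DW k i p) (KK ×ˢ univ) (z, u) := by
    intro k
    by_cases hk : z ∈ tsupport (d.θ k)
    · exact (theta_cont k).continuousWithinAt.smul (cont_DW hz ⟨hz.1, hk⟩ (h.gd ⟨hz.1, hk⟩))
    · refine (continuousWithinAt_const (b := (0 : Cm n →L[ℂ] Cm n))).congr_of_eventuallyEq ?_ ?_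
      · filter_upwards [theta_ev' hk _] with p hp
        rw [hp]; exact zero_smul ℂ (d.DW k i p)
      · have := (theta_ev hk).self_of_nhds
        simp only [this]; exact zero_smul ℂ (d.DW k i (z, u))
  have h2 : ContinuousWithinAt (fun p => ∑ k, d.θ k p.1 • d.DW k i p) (KK ×ˢ univ) (z, u) :=
    tendsto_finsetSum _ fun k _ => key k
  exact h2

lemma deriv_Φ (hz : z ∈ d.T i) (h : d.AG i (z, u)) :
    HasFDerivAt (fun u => d.Φ i (z, u)) (d.DΦ i (z, u)) u := by
  have key : ∀ k ∈ Finset.univ, HasFDerivAt (fun u => d.θ k z • d.W k i (z, u))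
      (d.θ k z • d.DW k i (z, u)) u := by
    intro k _
    by_cases hk : z ∈ tsupport (d.θ k)
    · exact (deriv_W (h.gd ⟨hz.1, hk⟩)).const_smul (d.θ k z)
    · have h0 := (theta_ev hk).self_of_nhds
      rw [h0]
      have h1 : (0 : ℂ) • d.DW k i (z, u) = 0 := zero_smul ℂ (d.DW k i (z, u))
      rw [h1]
      simp only [zero_smul]
      exact hasFDerivAt_const _ _
  exact HasFDerivAt.fun_sum key

lemma diff_Φ (hz : z ∈ d.T i) (hzD : z ∈ DD) (h : d.AG i (z, u)) :
    ContDiffAt ℝ 1 (d.Φ i) (z, u) := by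
  have key : ∀ k ∈ Finset.univ, ContDiffAt ℝ 1 (fun p : ℂ × Cm n => d.θ k p.1 • d.W k i p) (z, u) := by
    intro k _
    by_cases hk : z ∈ tsupport (d.θ k)
    · have h1 : ContDiffAt ℝ 1 (fun p : ℂ × Cm n => d.θ k p.1) (z, u) :=
        ContDiffAt.comp (z, u) (g := d.θ k) (f := Prod.fst)
          (((d.hθ k).of_le (by exact_mod_cast le_top)).contDiffAt) contDiffAt_fst
      exact h1.smul ((diff_W hz ⟨hz.1, hk⟩ hzD (h.gd ⟨hz.1, hk⟩)).restrict_scalars ℝ)
    · refine (contDiffAt_const (c := (0 : Cm n))).congr_of_eventuallyEq ?_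
      have := theta_ev' (d := d) (k := k) (z := z) (u := u) hk univ
      rw [nhdsWithin_univ] at this
      filter_upwards [this] with p hp
      rw [hp, zero_smul]
  exact ContDiffAt.sum key

lemma Φ_zero (hz : z ∈ d.T i) : d.Φ i (z, 0) = 0 := by
  unfold Φ
  refine Finset.sum_eq_zero fun k _ => ?_
  rw [W_zero hz, smul_zero]

lemma DΦ_zero (hz : z ∈ d.T i) : d.DΦ i (z, 0) = 1 := by
  have h : ∀ k, d.θ k z • d.DW k i (z, 0) = d.θ k z • (1 : Cm n →L[ℂ] Cm n) := by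
    intro k
    by_cases hk : z ∈ tsupport (d.θ k)
    · rw [DW_zero hz ⟨hz.1, hk⟩]
    · have h0 := (theta_ev hk).self_of_nhds
      rw [h0]
      exact (zero_smul ℂ (d.DW k i (z, 0))).trans (zero_smul ℂ (1 : Cm n →L[ℂ] Cm n)).symm
  unfold DΦ
  rw [Finset.sum_congr rfl fun k _ => h k, ← Finset.sum_smul, d.hsum z hz.1, one_smul]

/-- the `∂̄_z` derivative of the logarithm -/
lemma dbz_Φ (hz : z ∈ d.T i) (hzD : z ∈ DD) (h : d.AG i (z, u)) :
    dbz (d.Φ i) (z, u) = ∑ k, dbar (d.θ k) z • d.W k i (z, u) := by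
  have hd : ∀ k ∈ Finset.univ, DifferentiableAt ℝ (fun p : ℂ × Cm n => d.θ k p.1 • d.W k i p) (z, u) := by
    intro k _
    by_cases hk : z ∈ tsupport (d.θ k)
    · have h1 : DifferentiableAt ℝ (fun p : ℂ × Cm n => d.θ k p.1) (z, u) :=
        DifferentiableAt.comp (z, u) (g := d.θ k) (f := Prod.fst)
          ((d.hθ k).differentiable (by simp)).differentiableAt differentiableAt_fst
      exact h1.smul (((diff_W hz ⟨hz.1, hk⟩ hzD (h.gd ⟨hz.1, hk⟩)).differentiableAt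
        one_ne_zero).restrictScalars ℝ)
    · refine (differentiableAt_const (c := (0 : Cm n))).congr_of_eventuallyEq ?_
      have := theta_ev' (d := d) (k := k) (z := z) (u := u) hk univ
      rw [nhdsWithin_univ] at this
      filter_upwards [this] with p hp
      rw [hp, zero_smul]
  have h1 : dbz (d.Φ i) (z, u) = ∑ k, dbz (fun p : ℂ × Cm n => d.θ k p.1 • d.W k i p) (z, u) := by
    unfold dbz
    have h2 : fderiv ℝ (d.Φ i) (z, u) =
        ∑ k, fderiv ℝ (fun p : ℂ × Cm n => d.θ k p.1 • d.W k i p) (z, u) :=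
      fderiv_fun_sum hd
    rw [h2, ← Finset.smul_sum, Finset.sum_add_distrib, ← Finset.smul_sum]
    simp only [ContinuousLinearMap.sum_apply]
  rw [h1]
  refine Finset.sum_congr rfl fun k _ => ?_
  by_cases hk : z ∈ tsupport (d.θ k)
  · exact dbz_smul ((d.hθ k).differentiable (by simp)).differentiableAt
      ((diff_W hz ⟨hz.1, hk⟩ hzD (h.gd ⟨hz.1, hk⟩)).differentiableAt one_ne_zero)
  · have h3 : (fun p : ℂ × Cm n => d.θ k p.1 • d.W k i p) =ᶠ[𝓝 (z, u)] fun _ => 0 := by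
      have := theta_ev' (d := d) (k := k) (z := z) (u := u) hk univ
      rw [nhdsWithin_univ] at this
      filter_upwards [this] with p hp
      rw [hp, zero_smul]
    have h4 : dbar (d.θ k) z = 0 := by
      have : z ∉ tsupport (dbar (d.θ k)) := fun h => hk (tsupport_dbar _ h)
      exact image_eq_zero_of_notMem_tsupport this
    unfold dbz
    rw [h3.fderiv_eq, h4]
    simp

end man

end Dat

end Vale.Agent.P272.GEO
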