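import Vale.Agent.P272.GEO.G2b

/-! The local addition along a disc. -/

open scoped Manifold ContDiff Topology
open Complex Set Filter Metric

set_option linter.all false

noncomputable section

namespace Vale.Agent.P272.GEO

open Vale.Agent.P272.K Vale.Agent.P272.BR Vale.Agent.P272.CT

namespace Dat

variable {n : ℕ} {X : Type*} [TopologicalSpace X] [ChartedSpace (Cm n) X] {ι : Type*} [Fintype ι]
  {d : Dat n X ι} {i k : ι} {z : ℂ} {u v : Cm n} {y y' : X} {R ρ : ℝ}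

lemma exists_T (hz : z ∈ KK) : ∃ i, d.θ i z ≠ 0 ∧ z ∈ d.T i := by
  have h := d.hsum z hz
  by_contra hcon
  push Not at hcon
  have h2 : ∀ i, d.θ i z = 0 := by
    intro i
    by_contra h0
    exact hcon i h0 ⟨hz, subset_tsupport _ h0⟩
  simp [h2] at h

lemma T_nhds (h : d.θ i z ≠ 0) : d.T i ∈ 𝓝[KK] z := by
  have h1 : ∀ᶠ ζ in 𝓝 z, d.θ i ζ ≠ 0 := (d.hθ i).continuous.continuousAt.eventually_ne h
  filter_upwards [mem_nhdsWithin_of_mem_nhds h1, self_mem_nhdsWithin] with ζ hζ hζK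
  exact ⟨hζK, subset_tsupport _ hζ⟩

lemma w_P (hz : z ∈ d.T i) (h : d.x i (z, u) ∈ (d.c i).target) : d.w i z (d.P i (z, u)) = u := by
  unfold w P
  rw [(d.c i).right_inv h]
  show d.G i z (d.c i (d.f z) + d.F i z u - d.c i (d.f z)) = u
  rw [add_sub_cancel_left, GF hz]

lemma x_w (hz : z ∈ d.T i) : d.x i (z, d.w i z y) = d.c i y := by
  show d.c i (d.f z) + d.F i z (d.G i z (d.c i y - d.c i (d.f z))) = d.c i y
  rw [FG hz, add_sub_cancel]

lemma P_w (hz : z ∈ d.T i) (hy : y ∈ (d.c i).source) : d.P i (z, d.w i z y) = y := by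
  show (d.c i).symm (d.x i (z, d.w i z y)) = y
  rw [x_w hz, (d.c i).left_inv hy]

/-- `y` is close to `f z` in all charts of the pieces containing `z` -/
def Near (d : Dat n X ι) (R : ℝ) (z : ℂ) (y : X) : Prop :=
  ∀ i, z ∈ tsupport (d.θ i) → y ∈ (d.c i).source ∧ ‖d.w i z y‖ < R

section man
variable [IsManifold 𝓘(ℂ, Cm n) ω X]

/-- the uniform estimates -/
structure Unif (d : Dat n X ι) (R ρ : ℝ) : Prop where
  hR : 0 < R
  hρ : 0 < ρ
  ag : ∀ i, ∀ z ∈ d.T i, ∀ u, ‖u‖ < R → d.AG i (z, u)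
  near : ∀ i, ∀ z ∈ d.T i, ∀ u, ‖u‖ < R → ‖d.DΦ i (z, u) - ContinuousLinearMap.id ℂ (Cm n)‖ ≤ 1 / 2
  nr : ∀ i, ∀ z ∈ d.T i, ∀ u, ‖u‖ < 2 * ρ → d.Near R z (d.P i (z, u))
  le : 2 * ρ ≤ R

lemma nhds_T_le (i : ι) (p : ℂ × Cm n) : 𝓝[d.T i ×ˢ univ] p ≤ 𝓝[KK ×ˢ univ] p :=
  nhdsWithin_mono _ (prod_mono (fun z hz => hz.1) le_rfl)

lemma exists_unif (d : Dat n X ι) : ∃ R ρ, d.Unif R ρ := by
  have h1 : ∀ i, ∃ r > 0, ∀ z ∈ d.T i, ∀ u : Cm n, ‖u‖ < r → d.AG i (z, u) ∧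
      ‖d.DΦ i (z, u) - ContinuousLinearMap.id ℂ (Cm n)‖ ≤ 1 / 2 := by
    intro i
    refine unif_radius (P := fun z u => d.AG i (z, u) ∧
      ‖d.DΦ i (z, u) - ContinuousLinearMap.id ℂ (Cm n)‖ ≤ 1 / 2) (isCompact_T i) fun z hz => ?_
    have e1 := AG.eventually hz (ag_zero hz)
    have e2 : ∀ᶠ p in 𝓝[KK ×ˢ univ] ((z, 0) : ℂ × Cm n),
        ‖d.DΦ i p - ContinuousLinearMap.id ℂ (Cm n)‖ < 1 / 2 := by
      have c1 := ((cont_DΦ hz (ag_zero hz)).sub (continuousWithinAt_const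
        (b := ContinuousLinearMap.id ℂ (Cm n)))).norm
      refine c1.eventually_lt_const ?_
      show ‖d.DΦ i (z, 0) - (1 : Cm n →L[ℂ] Cm n)‖ < 1 / 2
      rw [DΦ_zero hz, sub_self, norm_zero]; norm_num
    exact (e1.and (e2.mono fun p hp => hp.le)).filter_mono (nhds_T_le i _)
  choose r hr hr' using h1
  obtain ⟨R, hR, hRr⟩ : ∃ R > 0, ∀ i, R ≤ r i := by
    rcases isEmpty_or_nonempty ι with h | h
    · exact ⟨1, one_pos, fun i => (h.false i).elim⟩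
    · exact ⟨Finset.univ.inf' Finset.univ_nonempty r, (Finset.lt_inf'_iff _).2 fun i _ => hr i,
        fun i => Finset.inf'_le _ (Finset.mem_univ i)⟩
  have h2 : ∀ i, ∃ s > 0, ∀ z ∈ d.T i, ∀ u : Cm n, ‖u‖ < s → d.Near R z (d.P i (z, u)) := by
    intro i
    refine unif_radius (P := fun z u => d.Near R z (d.P i (z, u))) (isCompact_T i) fun z hz => ?_
    have e1 := AG.eventually hz (ag_zero hz)
    have e2 : ∀ k, ∀ᶠ p in 𝓝[KK ×ˢ univ] ((z, 0) : ℂ × Cm n), p.1 ∈ tsupport (d.θ k) →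
        ‖d.W k i p‖ < R := by
      intro k
      by_cases hk : z ∈ tsupport (d.θ k)
      · have c1 := (cont_W hz ⟨hz.1, hk⟩ (gd_zero hz ⟨hz.1, hk⟩)).norm
        have c2 := c1.eventually_lt_const (u := R) (by
          show ‖d.W k i (z, 0)‖ < R
          rw [W_zero hz, norm_zero]; exact hR)
        filter_upwards [c2] with p hp _ using hp
      · have h3 : ∀ᶠ p in 𝓝[KK ×ˢ univ] ((z, 0) : ℂ × Cm n), p.1 ∉ tsupport (d.θ k) := by
          have : ContinuousWithinAt (Prod.fst : ℂ × Cm n → ℂ) (KK ×ˢ univ) (z, 0) :=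
            continuous_fst.continuousWithinAt
          exact this.eventually ((isClosed_tsupport _).isOpen_compl.mem_nhds hk)
        filter_upwards [h3] with p hp hp' using absurd hp' hp
    refine Eventually.filter_mono (nhds_T_le i _) ?_
    filter_upwards [e1, eventually_all.2 e2] with p hp hp'
    exact fun k hk => ⟨hp.2 k hk, hp' k hk⟩
  choose s hs hs' using h2
  obtain ⟨S, hS, hSs⟩ : ∃ S > 0, ∀ i, S ≤ s i := by
    rcases isEmpty_or_nonempty ι with h | h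
    · exact ⟨1, one_pos, fun i => (h.false i).elim⟩
    · exact ⟨Finset.univ.inf' Finset.univ_nonempty s, (Finset.lt_inf'_iff _).2 fun i _ => hs i,
        fun i => Finset.inf'_le _ (Finset.mem_univ i)⟩
  refine ⟨R, min R S / 2, hR, half_pos (lt_min hR hS), ?_, ?_, ?_, ?_⟩
  · exact fun i z hz u hu => (hr' i z hz u (hu.trans_le (hRr i))).1
  · exact fun i z hz u hu => (hr' i z hz u (hu.trans_le (hRr i))).2
  · intro i z hz u hu
    have : ‖u‖ < min R S := by linarith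
    exact hs' i z hz u ((this.trans_le (min_le_right _ _)).trans_le (hSs i))
  · have := min_le_left R S
    linarith

variable (h : d.Unif R ρ)
include h

lemma Unif.lip (hz : z ∈ d.T i) : ∀ u u', ‖u‖ < R → ‖u'‖ < R →
    ‖d.Φ i (z, u) - d.Φ i (z, u') - (u - u')‖ ≤ 1 / 2 * ‖u - u'‖ :=
  near_id_of_deriv (g := fun u => d.Φ i (z, u)) (g' := fun u => d.DΦ i (z, u))
    fun u hu => ⟨deriv_Φ hz (h.ag i z hz u hu), h.near i z hz u hu⟩

/-- uniqueness -/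
lemma Unif.uniq (hz : z ∈ KK) (hy : d.Near R z y) (hy' : d.Near R z y')
    (he : d.ell z y = d.ell z y') : y = y' := by
  obtain ⟨i, -, hi⟩ := exists_T (d := d) hz
  have h1 := hy i hi.2
  have h2 := hy' i hi.2
  have e1 : d.Φ i (z, d.w i z y) = d.ell z y := by rw [Φ_eq, P_w hi h1.1]
  have e2 : d.Φ i (z, d.w i z y') = d.ell z y' := by rw [Φ_eq, P_w hi h2.1]
  have h3 : d.w i z y = d.w i z y' :=
    near_id_inj (g := fun u => d.Φ i (z, u)) (h.lip hi _ _ h1.2 h2.2) (by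
      show d.Φ i (z, d.w i z y) = d.Φ i (z, d.w i z y')
      rw [e1, e2, he])
  rw [← P_w hi h1.1, ← P_w hi h2.1, h3]

/-- existence, in the coordinate `i` -/
lemma Unif.ex (hz : z ∈ d.T i) (hv : ‖v‖ < ρ) : ∃ u, ‖u‖ ≤ 2 * ‖v‖ ∧ d.Φ i (z, u) = v ∧
    d.Near R z (d.P i (z, u)) := by
  have hR : ‖v‖ < R / 2 := by have := h.le; linarith
  obtain ⟨u, hu, he⟩ := near_id_surj (g := fun u => d.Φ i (z, u)) (Φ_zero hz) (h.lip hz) hR
  exact ⟨u, hu, he, h.nr i z hz u (by linarith)⟩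

lemma Unif.exy (hz : z ∈ KK) (hv : ‖v‖ < ρ) : ∃ y, d.Near R z y ∧ d.ell z y = v := by
  obtain ⟨i, -, hi⟩ := exists_T (d := d) hz
  obtain ⟨u, -, he, hn⟩ := h.ex hi hv
  exact ⟨_, hn, he⟩

omit h

open Classical in
/-- the local addition -/
def Y (h : d.Unif R ρ) (z : ℂ) (v : Cm n) : X :=
  if hzv : z ∈ KK ∧ ‖v‖ < ρ then (h.exy hzv.1 hzv.2).choose else d.f z

lemma Y_near (h : d.Unif R ρ) (hz : z ∈ KK) (hv : ‖v‖ < ρ) : d.Near R z (Y h z v) := by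
  unfold Y
  rw [dif_pos ⟨hz, hv⟩]
  exact (h.exy hz hv).choose_spec.1

lemma Y_ell (h : d.Unif R ρ) (hz : z ∈ KK) (hv : ‖v‖ < ρ) : d.ell z (Y h z v) = v := by
  unfold Y
  rw [dif_pos ⟨hz, hv⟩]
  exact (h.exy hz hv).choose_spec.2

/-- the frame coordinate of `Y` -/
def U (h : d.Unif R ρ) (i : ι) (p : ℂ × Cm n) : Cm n := d.w i p.1 (Y h p.1 p.2)

lemma Y_mem (h : d.Unif R ρ) (hz : z ∈ d.T i) (hv : ‖v‖ < ρ) : Y h z v ∈ (d.c i).source :=
  (Y_near h hz.1 hv i hz.2).1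

lemma Y_eq (h : d.Unif R ρ) (hz : z ∈ d.T i) (hv : ‖v‖ < ρ) : Y h z v = d.P i (z, U h i (z, v)) :=
  (P_w hz (Y_mem h hz hv)).symm

lemma U_norm (h : d.Unif R ρ) (hz : z ∈ d.T i) (hv : ‖v‖ < ρ) : ‖U h i (z, v)‖ ≤ 2 * ‖v‖ := by
  obtain ⟨u, hu, he, hn⟩ := h.ex hz hv
  have h1 : Y h z v = d.P i (z, u) :=
    h.uniq hz.1 (Y_near h hz.1 hv) hn (by rw [Y_ell h hz.1 hv]; exact he.symm)
  have h2 : ‖u‖ < R := by have := h.le; linarith
  have h3 : U h i (z, v) = u := by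
    show d.w i z (Y h z v) = u
    rw [h1, w_P hz (h.ag i z hz u h2).1]
  rw [h3]; exact hu

lemma U_lt (h : d.Unif R ρ) (hz : z ∈ d.T i) (hv : ‖v‖ < ρ) : ‖U h i (z, v)‖ < R := by
  have := U_norm h hz hv
  have := h.le
  linarith

lemma Φ_U (h : d.Unif R ρ) (hz : z ∈ d.T i) (hv : ‖v‖ < ρ) : d.Φ i (z, U h i (z, v)) = v := by
  rw [Φ_eq]
  show d.ell z (d.P i (z, U h i (z, v))) = v
  rw [← Y_eq h hz hv, Y_ell h hz.1 hv]

lemma U_Φ (h : d.Unif R ρ) (hz : z ∈ d.T i) (hu : ‖u‖ < R) (hv : ‖d.Φ i (z, u)‖ < ρ) :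
    U h i (z, d.Φ i (z, u)) = u := by
  have h1 := Φ_U h hz hv
  exact near_id_inj (g := fun u => d.Φ i (z, u)) (h.lip hz _ _ (U_lt h hz hv) hu) h1

lemma Y_zero (h : d.Unif R ρ) (hz : z ∈ KK) : Y h z 0 = d.f z := by
  obtain ⟨i, -, hi⟩ := exists_T (d := d) hz
  have h0 : ‖(0 : Cm n)‖ < ρ := by rw [norm_zero]; exact h.hρ
  have h1 := U_norm h hi h0
  rw [norm_zero, mul_zero] at h1
  have h2 : U h i (z, 0) = 0 := norm_le_zero_iff.1 h1
  rw [Y_eq h hi h0, h2, P_zero hi]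

lemma U_zero (h : d.Unif R ρ) (hz : z ∈ d.T i) : U h i (z, 0) = 0 := by
  have h1 := U_norm h hz (v := 0) (by rw [norm_zero]; exact h.hρ)
  rw [norm_zero, mul_zero] at h1
  exact norm_le_zero_iff.1 h1

/-- continuity of `U` on the closed piece -/
lemma U_cont (h : d.Unif R ρ) (hz : z ∈ d.T i) (hv : ‖v‖ < ρ) :
    ContinuousWithinAt (U h i) (d.T i ×ˢ ball 0 ρ) (z, v) := by
  set u₀ := U h i (z, v) with hu₀
  have hu₀R : ‖u₀‖ < R := U_lt h hz hv
  have c1 : ContinuousWithinAt (fun p : ℂ × Cm n => p.2 - d.Φ i (p.1, u₀))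
      (d.T i ×ˢ ball 0 ρ) (z, v) := by
    refine continuous_snd.continuousWithinAt.sub ?_
    refine ContinuousWithinAt.comp (t := KK ×ˢ univ) (g := d.Φ i)
      (f := fun p : ℂ × Cm n => (p.1, u₀)) (x := ((z, v) : ℂ × Cm n))
      (cont_Φ hz (h.ag i z hz u₀ hu₀R)) (by fun_prop) (fun p hp => ⟨hp.1.1, trivial⟩)
  have c2 : Tendsto (fun p : ℂ × Cm n => 2 * ‖p.2 - d.Φ i (p.1, u₀)‖)
      (𝓝[d.T i ×ˢ ball 0 ρ] (z, v)) (𝓝 0) := by
    have := (c1.norm.const_mul 2)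
    have e : 2 * ‖(z, v).2 - d.Φ i ((z, v).1, u₀)‖ = 0 := by
      show 2 * ‖v - d.Φ i (z, u₀)‖ = 0
      rw [hu₀, Φ_U h hz hv]; simp
    unfold ContinuousWithinAt at this
    simp only [e] at this
    exact this
  have c3 : Tendsto (fun p : ℂ × Cm n => ‖U h i p - u₀‖) (𝓝[d.T i ×ˢ ball 0 ρ] (z, v)) (𝓝 0) := by
    refine squeeze_zero' (Eventually.of_forall fun p => norm_nonneg _) ?_ c2
    filter_upwards [self_mem_nhdsWithin] with p hp
    have hp2 : ‖p.2‖ < ρ := by simpa using hp.2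
    have h3 := near_id_lower (g := fun u => d.Φ i (p.1, u))
      (h.lip hp.1 _ _ (U_lt h hp.1 hp2) hu₀R)
    simp only [Φ_U h hp.1 hp2] at h3
    show ‖U h i p - u₀‖ ≤ 2 * ‖p.2 - d.Φ i (p.1, u₀)‖
    have : (p.1, p.2) = p := rfl
    rw [this] at h3
    linarith
  exact tendsto_iff_norm_sub_tendsto_zero.2 c3

lemma Y_cont (h : d.Unif R ρ) :
    ContinuousOn (fun p : ℂ × Cm n => Y h p.1 p.2) (KK ×ˢ ball 0 ρ) := by
  rintro ⟨z, v⟩ ⟨hz, hv⟩
  have hv' : ‖v‖ < ρ := by simpa using hv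
  obtain ⟨i, hi0, hi⟩ := exists_T (d := d) hz
  have hmem : d.T i ×ˢ ball (0 : Cm n) ρ ∈ 𝓝[KK ×ˢ ball 0 ρ] (z, v) := by
    rw [nhdsWithin_prod_eq]
    exact prod_mem_prod (T_nhds hi0) self_mem_nhdsWithin
  have hU := U_cont h hi hv'
  have h1 : ContinuousWithinAt (fun p : ℂ × Cm n => d.P i (p.1, U h i p)) (d.T i ×ˢ ball 0 ρ) (z, v) := by
    have hx := (h.ag i z hi _ (U_lt h hi hv')).1
    exact ContinuousWithinAt.comp (t := KK ×ˢ univ) (g := d.P i)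
      (f := fun p : ℂ × Cm n => (p.1, U h i p)) (x := ((z, v) : ℂ × Cm n)) (cont_P hi hx)
      (continuous_fst.continuousWithinAt.prodMk hU) (fun p hp => ⟨hp.1.1, trivial⟩)
  have h2 : ContinuousWithinAt (fun p : ℂ × Cm n => d.P i (p.1, U h i p)) (KK ×ˢ ball 0 ρ) (z, v) :=
    h1.mono_of_mem_nhdsWithin hmem
  refine h2.congr_of_eventuallyEq ?_ (Y_eq h hi hv')
  filter_upwards [hmem] with p hp
  exact Y_eq h hp.1 (by simpa using hp.2)

/-- invertibility of the derivative -/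
lemma exists_equiv (h : d.Unif R ρ) (hz : z ∈ d.T i) (hu : ‖u‖ < R) :
    ∃ L : Cm n ≃L[ℂ] Cm n, (L : Cm n →L[ℂ] Cm n) = d.DΦ i (z, u) := by
  have h1 := h.near i z hz u hu
  have h2 : ‖(1 : Cm n →L[ℂ] Cm n) - d.DΦ i (z, u)‖ < 1 := by
    rw [norm_sub_rev]; exact lt_of_le_of_lt h1 (by norm_num)
  refine ⟨ContinuousLinearEquiv.unitsEquiv ℂ (Cm n) (Units.oneSub _ h2), ?_⟩
  ext1 a
  show (1 - (1 - d.DΦ i (z, u))) a = _
  rw [sub_sub_cancel]

/-- derivative of `U` in `v` -/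
lemma deriv_U (h : d.Unif R ρ) (hz : z ∈ d.T i) (hv : ‖v‖ < ρ) {L : Cm n ≃L[ℂ] Cm n}
    (hL : (L : Cm n →L[ℂ] Cm n) = d.DΦ i (z, U h i (z, v))) :
    HasFDerivAt (fun v => U h i (z, v)) (L.symm : Cm n →L[ℂ] Cm n) v := by
  have c1 : ContinuousAt (fun v => U h i (z, v)) v := by
    have h1 := U_cont h hz hv
    have h2 : ContinuousWithinAt (fun v => U h i (z, v)) (ball 0 ρ) v :=
      ContinuousWithinAt.comp (t := d.T i ×ˢ ball 0 ρ) (g := U h i) (f := fun v : Cm n => (z, v))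
        (x := v) h1 (by fun_prop) (fun a ha => ⟨hz, ha⟩)
    exact h2.continuousAt (isOpen_ball.mem_nhds (by simpa using hv))
  refine HasFDerivAt.of_local_left_inverse (f := fun u => d.Φ i (z, u)) c1 ?_ ?_
  · rw [hL]
    exact deriv_Φ hz (h.ag i z hz _ (U_lt h hz hv))
  · filter_upwards [isOpen_ball.mem_nhds (show v ∈ ball (0 : Cm n) ρ by simpa using hv)] with a ha
    exact Φ_U h hz (by simpa using ha)

lemma diff_U (h : d.Unif R ρ) (hz : z ∈ d.T i) (hv : ‖v‖ < ρ) :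
    DifferentiableAt ℂ (fun v => U h i (z, v)) v := by
  obtain ⟨L, hL⟩ := exists_equiv h hz (U_lt h hz hv)
  exact (deriv_U h hz hv hL).differentiableAt

lemma deriv_U_zero (h : d.Unif R ρ) (hz : z ∈ d.T i) :
    HasFDerivAt (fun v => U h i (z, v)) (ContinuousLinearMap.id ℂ (Cm n)) 0 := by
  have h0 : ‖(0 : Cm n)‖ < ρ := by rw [norm_zero]; exact h.hρ
  have := deriv_U h hz h0 (L := ContinuousLinearEquiv.refl ℂ (Cm n)) (by
    rw [U_zero h hz, DΦ_zero hz]; rfl)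
  exact this

/-- `Y` in a chart, as a function of `v` -/
lemma hasFDerivAt_Y (h : d.Unif R ρ) (hz : z ∈ d.T i) (hv : ‖v‖ < ρ) {e : Chart n X}
    (he : At e (Y h z v)) {T : Cm n →L[ℂ] Cm n}
    (hT : HasFDerivAt (fun v => U h i (z, v)) T v) :
    HasFDerivAt (fun v => e (Y h z v)) ((fderiv ℂ (fun a => e ((d.c i).symm a))
      (d.c i (Y h z v))).comp ((d.F i z).comp T)) v := by
  have hc : At (d.c i) (Y h z v) := ⟨d.hc i, Y_mem h hz hv⟩
  have e1 : d.x i (z, U h i (z, v)) = d.c i (Y h z v) := x_w hz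
  have h1 : HasFDerivAt (fun a => e ((d.c i).symm a)) (fderiv ℂ (fun a => e ((d.c i).symm a))
      (d.c i (Y h z v))) (d.x i (z, U h i (z, v))) := by
    rw [e1]; exact (transition_differentiableAt hc he).hasFDerivAt
  have h2 : HasFDerivAt (fun v => d.x i (z, U h i (z, v))) ((d.F i z).comp T) v :=
    HasFDerivAt.comp v (g := fun u => d.x i (z, u)) (f := fun v => U h i (z, v))
      (deriv_x i z _) hT
  have h3 := HasFDerivAt.comp v h1 h2
  refine h3.congr_of_eventuallyEq ?_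
  filter_upwards [isOpen_ball.mem_nhds (show v ∈ ball (0 : Cm n) ρ by simpa using hv)] with a ha
  show e (Y h z a) = e (d.P i (z, U h i (z, a)))
  rw [← Y_eq h hz (by simpa using ha)]

/-- `U` is `C¹` in the interior -/
lemma U_nhds (h : d.Unif R ρ) (hz : z ∈ DD) (hi : d.θ i z ≠ 0) (hv : ‖v‖ < ρ) :
    ∀ᶠ p in 𝓝 (z, v), p.1 ∈ d.T i ∧ p.1 ∈ DD ∧ ‖p.2‖ < ρ := by
  have hK : ∀ᶠ ζ in 𝓝 z, ζ ∈ d.T i := by
    have := T_nhds hi
    rwa [nhdsWithin_eq_nhds.2 (mem_of_superset (isOpen_ball.mem_nhds hz) ball_subset_closedBall)] at this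
  have h1 : ∀ᶠ p in 𝓝 (z, v), p.1 ∈ d.T i := continuousAt_fst.eventually hK
  have h2 : ∀ᶠ p in 𝓝 (z, v), p.1 ∈ DD := continuousAt_fst.eventually (isOpen_ball.mem_nhds hz)
  have h3 : ∀ᶠ p in 𝓝 (z, v), ‖p.2‖ < ρ := by
    have : ContinuousAt (fun p : ℂ × Cm n => ‖p.2‖) (z, v) := by fun_prop
    exact this.eventually_lt_const hv
  filter_upwards [h1, h2, h3] with p a b c using ⟨a, b, c⟩

lemma fderiv_Φ_snd (h : d.Unif R ρ) (hz : z ∈ d.T i) (hzD : z ∈ DD) (hu : ‖u‖ < R) (b : Cm n) :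
    fderiv ℝ (d.Φ i) (z, u) (0, b) = d.DΦ i (z, u) b := by
  have h1 : HasFDerivAt (d.Φ i) (fderiv ℝ (d.Φ i) (z, u)) (z, u) :=
    ((diff_Φ hz hzD (h.ag i z hz u hu)).differentiableAt one_ne_zero).hasFDerivAt
  have h2 : HasFDerivAt (fun u : Cm n => (z, u)) (ContinuousLinearMap.inr ℝ ℂ (Cm n)) u :=
    hasFDerivAt_prodMk_right z u
  have h3 := HasFDerivAt.comp u h1 h2
  have h4 := (deriv_Φ hz (h.ag i z hz u hu)).restrictScalars ℝ
  have h5 := h3.unique h4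
  exact congrArg (fun T => T b) h5

lemma c1_U (h : d.Unif R ρ) (hz : z ∈ DD) (hi : d.θ i z ≠ 0) (hv : ‖v‖ < ρ) :
    ContDiffAt ℝ 1 (U h i) (z, v) := by
  have hT := (U_nhds h hz hi hv).self_of_nhds
  have hzT : z ∈ d.T i := hT.1
  have huR := U_lt h hzT hv
  obtain ⟨L, hL⟩ := exists_equiv h hzT huR
  have hΦc := diff_Φ hzT hz (h.ag i z hzT _ huR)
  refine inv_c1 (Φ := d.Φ i) (u₀ := U h i (z, v)) hΦc L ?_ (Φ_U h hzT hv) ?_
  · intro b
    rw [fderiv_Φ_snd h hzT hz huR b, ← hL]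
    rfl
  · have c1 : ∀ᶠ p in 𝓝 (z, U h i (z, v)), ‖d.Φ i p‖ < ρ := by
      refine (hΦc.continuousAt.norm).eventually_lt_const ?_
      show ‖d.Φ i (z, U h i (z, v))‖ < ρ
      rw [Φ_U h hzT hv]; exact hv
    have c2 : ∀ᶠ p in 𝓝 (z, U h i (z, v)), ‖p.2‖ < R := by
      have : ContinuousAt (fun p : ℂ × Cm n => ‖p.2‖) (z, U h i (z, v)) := by fun_prop
      exact this.eventually_lt_const huR
    have c3 : ∀ᶠ p in 𝓝 (z, U h i (z, v)), p.1 ∈ d.T i := by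
      have := U_nhds h hz hi hv
      have h4 : ∀ᶠ ζ in 𝓝 z, ζ ∈ d.T i := by
        have := T_nhds hi
        rwa [nhdsWithin_eq_nhds.2 (mem_of_superset (isOpen_ball.mem_nhds hz)
          ball_subset_closedBall)] at this
      exact continuousAt_fst.eventually h4
    filter_upwards [c1, c2, c3] with p hp1 hp2 hp3
    exact U_Φ h hp3 hp2 hp1

lemma dbz_U (h : d.Unif R ρ) (hz : z ∈ DD) (hi : d.θ i z ≠ 0) (hv : ‖v‖ < ρ) :
    dbz (U h i) (z, v) + fderiv ℝ (U h i) (z, v) (0, dbz (d.Φ i) (z, U h i (z, v))) = 0 := by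
  have hT := (U_nhds h hz hi hv).self_of_nhds
  have hzT : z ∈ d.T i := hT.1
  have huR := U_lt h hzT hv
  obtain ⟨L, hL⟩ := exists_equiv h hzT huR
  refine inv_dbz ((diff_Φ hzT hz (h.ag i z hzT _ huR)).differentiableAt one_ne_zero)
    ((c1_U h hz hi hv).differentiableAt one_ne_zero) L ?_ rfl ?_
  · intro b
    rw [fderiv_Φ_snd h hzT hz huR b, ← hL]
    rfl
  · filter_upwards [U_nhds h hz hi hv] with p hp
    exact Φ_U h hp.1 hp.2.2

/-- the field `Q` -/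
def Q (h : d.Unif R ρ) (z : ℂ) (v : Cm n) : Cm n := - ∑ k, dbar (d.θ k) z • U h k (z, v)

lemma Q_eq (h : d.Unif R ρ) (hz : z ∈ d.T i) (hzD : z ∈ DD) (hv : ‖v‖ < ρ) :
    dbz (d.Φ i) (z, U h i (z, v)) = - Q h z v := by
  rw [dbz_Φ hz hzD (h.ag i z hz _ (U_lt h hz hv))]
  unfold Q
  rw [neg_neg]
  refine Finset.sum_congr rfl fun k _ => ?_
  show _ • d.w k z (d.P i (z, U h i (z, v))) = _ • d.w k z (Y h z v)
  rw [← Y_eq h hz hv]

lemma dbar_zero {z : ℂ} (hk : z ∉ tsupport (d.θ k)) : dbar (d.θ k) z = 0 :=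
  image_eq_zero_of_notMem_tsupport fun h => hk (tsupport_dbar _ h)

lemma dbar_cont (k : ι) : Continuous (dbar (d.θ k)) := (contDiff_dbar (d.hθ k)).continuous

lemma Uk_cont (h : d.Unif R ρ) (hz : z ∈ d.T k) (hv : ‖v‖ < ρ) :
    ContinuousWithinAt (fun p : ℂ × Cm n => U h k p) (KK ×ˢ ball 0 ρ) (z, v) := by
  have h1 : ContinuousWithinAt (fun p : ℂ × Cm n => d.G k p.1) (KK ×ˢ ball 0 ρ) (z, v) :=
    ContinuousWithinAt.comp (t := KK) (g := d.G k) (f := Prod.fst) (x := ((z, v) : ℂ × Cm n))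
      (cont_G hz) continuous_fst.continuousWithinAt (fun p hp => hp.1)
  have h2 : ContinuousWithinAt (fun p : ℂ × Cm n => d.c k (d.f p.1)) (KK ×ˢ ball 0 ρ) (z, v) :=
    ContinuousWithinAt.comp (t := KK) (g := fun z => d.c k (d.f z)) (f := Prod.fst)
      (x := ((z, v) : ℂ × Cm n)) (cont_cf hz)
      continuous_fst.continuousWithinAt (fun p hp => hp.1)
  have h3 : ContinuousWithinAt (fun p : ℂ × Cm n => d.c k (Y h p.1 p.2)) (KK ×ˢ ball 0 ρ) (z, v) :=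
    ((d.c k).continuousAt (Y_mem h hz hv)).comp_continuousWithinAt
      (f := fun p : ℂ × Cm n => Y h p.1 p.2) (Y_cont h (z, v) ⟨hz.1, by simpa using hv⟩)
  exact h1.clm_apply (h3.sub h2)

lemma Q_cont (h : d.Unif R ρ) :
    ContinuousOn (fun p : ℂ × Cm n => Q h p.1 p.2) (KK ×ˢ ball 0 ρ) := by
  rintro ⟨z, v⟩ ⟨hz, hv⟩
  have hv' : ‖v‖ < ρ := by simpa using hv
  have key : ∀ k, ContinuousWithinAt (fun p : ℂ × Cm n => dbar (d.θ k) p.1 • U h k (p.1, p.2))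
      (KK ×ˢ ball 0 ρ) (z, v) := by
    intro k
    by_cases hk : z ∈ tsupport (d.θ k)
    · exact ((dbar_cont k).comp continuous_fst).continuousWithinAt.smul (Uk_cont h ⟨hz, hk⟩ hv')
    · refine (continuousWithinAt_const (b := (0 : Cm n))).congr_of_eventuallyEq ?_ ?_
      · have h1 : ∀ᶠ p in 𝓝[KK ×ˢ ball 0 ρ] (z, v), p.1 ∉ tsupport (d.θ k) := by
          have : ContinuousWithinAt (Prod.fst : ℂ × Cm n → ℂ) (KK ×ˢ ball 0 ρ) (z, v) :=
            continuous_fst.continuousWithinAt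
          exact this.eventually ((isClosed_tsupport _).isOpen_compl.mem_nhds hk)
        filter_upwards [h1] with p hp
        rw [dbar_zero hp, zero_smul]
      · show dbar (d.θ k) z • _ = _
        rw [dbar_zero hk, zero_smul]
  have h2 : ContinuousWithinAt (fun p : ℂ × Cm n => ∑ k, dbar (d.θ k) p.1 • U h k (p.1, p.2))
      (KK ×ˢ ball 0 ρ) (z, v) := tendsto_finsetSum _ fun k _ => key k
  exact h2.neg

lemma Q_hasFDeriv (h : d.Unif R ρ) (hz : z ∈ KK) (hv : ‖v‖ < ρ) {T : ι → Cm n →L[ℂ] Cm n}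
    (hT : ∀ k, z ∈ tsupport (d.θ k) → HasFDerivAt (fun v => U h k (z, v)) (T k) v) :
    HasFDerivAt (Q h z) (- ∑ k, dbar (d.θ k) z • T k) v := by
  have key : ∀ k ∈ Finset.univ, HasFDerivAt (fun v => dbar (d.θ k) z • U h k (z, v))
      (dbar (d.θ k) z • T k) v := by
    intro k _
    by_cases hk : z ∈ tsupport (d.θ k)
    · exact (hT k hk).const_smul (dbar (d.θ k) z)
    · rw [dbar_zero hk]
      have h1 : (0 : ℂ) • T k = 0 := zero_smul ℂ (T k)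
      rw [h1]
      simp only [zero_smul]
      exact hasFDerivAt_const _ _
  exact (HasFDerivAt.fun_sum key).fun_neg

lemma Q_diff (h : d.Unif R ρ) (hz : z ∈ KK) : DifferentiableOn ℂ (Q h z) (ball 0 ρ) := by
  intro v hv
  have hv' : ‖v‖ < ρ := by simpa using hv
  have h1 : ∀ k, ∃ T : Cm n →L[ℂ] Cm n, z ∈ tsupport (d.θ k) →
      HasFDerivAt (fun v => U h k (z, v)) T v := by
    intro k
    by_cases hk : z ∈ tsupport (d.θ k)
    · exact ⟨_, fun _ => (diff_U h ⟨hz, hk⟩ hv').hasFDerivAt⟩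
    · exact ⟨0, fun h => absurd h hk⟩
  choose T hT using h1
  exact (Q_hasFDeriv h hz hv' hT).differentiableAt.differentiableWithinAt

lemma sum_dbar (hz : z ∈ KK) : ∑ k, dbar (d.θ k) z = 0 := by
  have hc : Continuous fun z => ∑ k, dbar (d.θ k) z := continuous_finsetSum _ fun k _ => dbar_cont k
  have h1 : ∀ z ∈ DD, ∑ k, dbar (d.θ k) z = 0 := by
    intro z hz
    have hd : ∀ k ∈ Finset.univ, DifferentiableAt ℝ (d.θ k) z := fun k _ =>
      ((d.hθ k).differentiable (by simp)).differentiableAt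
    have h2 : fderiv ℝ (fun z => ∑ k, d.θ k z) z = ∑ k, fderiv ℝ (d.θ k) z := fderiv_fun_sum hd
    have h3 : (fun z => ∑ k, d.θ k z) =ᶠ[𝓝 z] fun _ => 1 := by
      filter_upwards [isOpen_ball.mem_nhds hz] with w hw
      exact d.hsum w (ball_subset_closedBall hw)
    rw [h3.fderiv_eq, fderiv_fun_const] at h2
    unfold dbar
    rw [← Finset.mul_sum, Finset.sum_add_distrib, ← Finset.mul_sum]
    have h4 : ∀ a : ℂ, ∑ k, fderiv ℝ (d.θ k) z a = 0 := by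
      intro a
      have := congrArg (fun T => T a) h2
      simpa using this.symm
    rw [h4, h4]; simp
  have h2 : closure DD ⊆ {z | ∑ k, dbar (d.θ k) z = 0} :=
    closure_minimal (fun z hz => h1 z hz) (isClosed_eq hc continuous_const)
  have h3 : closure DD = KK := closure_ball (0 : ℂ) one_ne_zero
  rw [h3] at h2
  exact h2 hz

lemma Q_zero (h : d.Unif R ρ) (hz : z ∈ KK) : Q h z 0 = 0 := by
  unfold Q
  rw [neg_eq_zero]
  refine Finset.sum_eq_zero fun k _ => ?_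
  by_cases hk : z ∈ tsupport (d.θ k)
  · rw [U_zero h ⟨hz, hk⟩, smul_zero]
  · rw [dbar_zero hk, zero_smul]

lemma Q_deriv_zero (h : d.Unif R ρ) (hz : z ∈ KK) : HasFDerivAt (Q h z) (0 : Cm n →L[ℂ] Cm n) 0 := by
  have h1 := Q_hasFDeriv h hz (v := 0) (by rw [norm_zero]; exact h.hρ)
    (T := fun _ => ContinuousLinearMap.id ℂ (Cm n)) (fun k hk => deriv_U_zero h ⟨hz, hk⟩)
  have h2 : ∑ k, dbar (d.θ k) z • ContinuousLinearMap.id ℂ (Cm n) = 0 := by
    rw [← Finset.sum_smul, sum_dbar hz]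
    exact zero_smul ℂ _
  rw [h2, neg_zero] at h1
  exact h1

/-- the quadratic bound -/
lemma Q_bound (h : d.Unif R ρ) : ∃ A, ∀ z ∈ KK, ∀ v : Cm n, ‖v‖ < ρ / 2 →
    ‖Q h z v‖ ≤ A * ‖v‖ ^ 2 := by
  have hρ := h.hρ
  have hcomp : IsCompact (KK ×ˢ closedBall (0 : Cm n) (ρ / 2)) :=
    (isCompact_closedBall (0 : ℂ) 1).prod (isCompact_closedBall _ _)
  have hsub : KK ×ˢ closedBall (0 : Cm n) (ρ / 2) ⊆ KK ×ˢ ball 0 ρ :=
    prod_mono le_rfl (closedBall_subset_ball (by linarith))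
  obtain ⟨M, hM⟩ := hcomp.exists_bound_of_continuousOn ((Q_cont h).mono hsub)
  refine ⟨M / (ρ / 2) ^ 2, fun z hz v hv => ?_⟩
  refine schwarz_two (half_pos hρ) ((Q_diff h hz).mono (ball_subset_ball (by linarith))) ?_
    (Q_zero h hz) (Q_deriv_zero h hz) hv
  intro a ha
  exact hM (z, a) ⟨hz, ball_subset_closedBall ha⟩

/-- the holomorphy criterion -/
lemma hol (h : d.Unif R ρ) {v : ℂ → Cm n} (hv : ContinuousOn v DD) (hb : ∀ z ∈ DD, ‖v z‖ < ρ)
    (hw : WDb DD v fun z => - Q h z (v z)) : HolOn n (fun z => Y h z (v z)) DD := by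
  intro z₀ hz₀
  obtain ⟨i, hi0, hi⟩ := exists_T (d := d) (ball_subset_closedBall hz₀ : z₀ ∈ KK)
  -- a small disc around `z₀`
  set Ω : Set ℂ := DD ∩ {z | d.θ i z ≠ 0} with hΩ
  have hΩo : IsOpen Ω := isOpen_ball.inter (isOpen_ne_fun (d.hθ i).continuous continuous_const)
  have hΩT : ∀ z ∈ Ω, z ∈ d.T i := fun z hz =>
    ⟨ball_subset_closedBall hz.1, subset_tsupport _ hz.2⟩
  have hΩ0 : z₀ ∈ Ω := ⟨hz₀, hi0⟩
  have hΩD : Ω ⊆ DD := fun z hz => hz.1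
  have hvΩ : ContinuousOn v Ω := hv.mono hΩD
  have hqc : ContinuousOn (fun z => - Q h z (v z)) Ω := by
    have h1 : ContinuousOn (fun z => Q h z (v z)) Ω :=
      (Q_cont h).comp (f := fun z => (z, v z)) (continuousOn_id.prodMk hvΩ)
        (fun z hz => ⟨ball_subset_closedBall hz.1, by simpa using hb z hz.1⟩)
    exact h1.neg
  set Wn : Set (ℂ × Cm n) := Ω ×ˢ ball 0 ρ with hWn
  have hWo : IsOpen Wn := hΩo.prod isOpen_ball
  have hWp : ∀ p ∈ Wn, p.1 ∈ DD ∧ d.θ i p.1 ≠ 0 ∧ ‖p.2‖ < ρ ∧ p.1 ∈ d.T i := fun p hp =>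
    ⟨hp.1.1, hp.1.2, by simpa using hp.2, hΩT _ hp.1⟩
  have hUc : ContDiffOn ℝ 1 (U h i) Wn := fun p hp =>
    (c1_U h (hWp p hp).1 (hWp p hp).2.1 (hWp p hp).2.2.1).contDiffWithinAt
  have hlin : ∀ p ∈ Wn, ∀ a : Cm n,
      fderiv ℝ (U h i) p (0, I • a) = I • fderiv ℝ (U h i) p (0, a) := by
    intro p hp a
    have h1 : HasFDerivAt (U h i) (fderiv ℝ (U h i) p) p :=
      ((c1_U h (hWp p hp).1 (hWp p hp).2.1 (hWp p hp).2.2.1).differentiableAt
        one_ne_zero).hasFDerivAt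
    have h2 : HasFDerivAt (fun u : Cm n => (p.1, u)) (ContinuousLinearMap.inr ℝ ℂ (Cm n)) p.2 :=
      hasFDerivAt_prodMk_right p.1 p.2
    have h3 := HasFDerivAt.comp p.2 h1 h2
    have h4 := ((diff_U h (hWp p hp).2.2.2 (hWp p hp).2.2.1).hasFDerivAt).restrictScalars ℝ
    have h5 := h3.unique h4
    have h6 : ∀ b : Cm n, fderiv ℝ (U h i) p (0, b) = fderiv ℂ (fun v => U h i (p.1, v)) p.2 b :=
      fun b => congrArg (fun T => T b) h5
    rw [h6, h6, map_smul]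
  have hcomp := WDb.comp hΩo hvΩ hqc (hw.mono hΩD) hWo hUc hlin
    (fun z hz => ⟨hz, by simpa using hb z hz.1⟩)
  have hzero : WDb Ω (fun z => U h i (z, v z)) fun _ => 0 := by
    refine hcomp.congr (fun z hz => rfl) (fun z hz => ?_)
    have hz' := hWp (z, v z) ⟨hz, by simpa using hb z hz.1⟩
    have h1 := dbz_U h hz'.1 hz'.2.1 hz'.2.2.1
    rw [Q_eq h hz'.2.2.2 hz'.1 hz'.2.2.1] at h1
    exact h1
  have hUv : ContinuousOn (fun z => U h i (z, v z)) Ω :=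
    hUc.continuousOn.comp (f := fun z => (z, v z)) (continuousOn_id.prodMk hvΩ)
      (fun z hz => ⟨hz, by simpa using hb z hz.1⟩)
  have hd : DifferentiableAt ℂ (fun z => U h i (z, v z)) z₀ :=
    (hzero.holo hΩo hUv).differentiableAt (hΩo.mem_nhds hΩ0)
  -- back to `X`
  have hdx : DifferentiableAt ℂ (fun z => d.x i (z, U h i (z, v z))) z₀ := by
    have h1 : DifferentiableAt ℂ (fun z => d.c i (d.f z)) z₀ :=
      (cf_nhds hz₀ (at_T hi)).differentiableAt one_ne_zero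
    have h2 : DifferentiableAt ℂ (d.F i) z₀ := (d.hFd i z₀ hz₀ hi.2).differentiableAt one_ne_zero
    exact h1.add (h2.clm_apply hd)
  have htar : d.x i (z₀, U h i (z₀, v z₀)) ∈ (d.c i).target :=
    (h.ag i z₀ hi _ (U_lt h hi (hb z₀ hz₀))).1
  have h1 := holAt_symm (e := d.c i) (d.hc i) (G := fun z => d.x i (z, U h i (z, v z))) htar hdx
  refine HolAt.congr h1 ?_
  filter_upwards [hΩo.mem_nhds hΩ0] with z hz
  exact Y_eq h (hΩT z hz) (hb z hz.1)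

end man

end Dat

end Vale.Agent.P272.GEO
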