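import Vale.Agent.P272.GEO.Joint

/-! Osgood: a continuous function of `n` complex variables which is holomorphic in each variable
is complex differentiable. -/

open Set Metric Filter
open scoped Topology

set_option linter.all false

namespace Vale.Agent.P272.GEO

variable {F : Type*} [NormedAddCommGroup F] [NormedSpace ℂ F] [CompleteSpace F]

theorem osgood : ∀ {n : ℕ} {V : Set (Fin n → ℂ)} (_ : IsOpen V) {g : (Fin n → ℂ) → F}
    (_ : ContinuousOn g V)
    (_ : ∀ x ∈ V, ∀ i, DifferentiableAt ℂ (fun τ : ℂ => g (Function.update x i τ)) (x i)),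
    DifferentiableOn ℂ g V := by
  intro n
  induction n with
  | zero =>
    intro V hV g hc hd
    exact (differentiable_of_subsingleton (𝕜 := ℂ) (f := g)).differentiableOn
  | succ n ih =>
    intro V hV g hc hd x0 hx0
    set G : ℂ → (Fin n → ℂ) → F := fun z y => g (Fin.cons z y) with hG
    have hcons : Continuous fun p : ℂ × (Fin n → ℂ) => (Fin.cons p.1 p.2 : Fin (n + 1) → ℂ) := by
      refine continuous_pi fun i => ?_
      refine Fin.cases ?_ (fun j => ?_) i
      · simpa using continuous_fst
      · simp only [Fin.cons_succ]; fun_prop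
    have hx0' : (Fin.cons (x0 0) (Fin.tail x0) : Fin (n + 1) → ℂ) = x0 := Fin.cons_self_tail x0
    have hpre : (fun p : ℂ × (Fin n → ℂ) => (Fin.cons p.1 p.2 : Fin (n + 1) → ℂ)) ⁻¹' V
        ∈ 𝓝 (x0 0, Fin.tail x0) := by
      refine hcons.continuousAt.preimage_mem_nhds ?_
      rw [hx0']
      exact hV.mem_nhds hx0
    obtain ⟨U, hU, W, hW, hUW⟩ := mem_nhds_prod_iff.1 hpre
    obtain ⟨U', hU'U, hU', hzU'⟩ := _root_.mem_nhds_iff.1 hU
    obtain ⟨W', hW'W, hW', hzW'⟩ := _root_.mem_nhds_iff.1 hW
    have hmem : ∀ z ∈ U', ∀ y ∈ W', (Fin.cons z y : Fin (n + 1) → ℂ) ∈ V := fun z hz y hy =>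
      hUW (show (z, y) ∈ U ×ˢ W from ⟨hU'U hz, hW'W hy⟩)
    have h1 : DifferentiableAt ℂ (fun p : ℂ × (Fin n → ℂ) => G p.1 p.2) (x0 0, Fin.tail x0) := by
      refine differentiableAt_joint hU' hW' (G := G) ?_ ?_ ?_ hzU' hzW'
      · exact hc.comp hcons.continuousOn (fun p hp => hmem _ hp.1 _ hp.2)
      · intro y hy z hz
        have h2 := hd _ (hmem z hz y hy) 0
        simp only [Fin.cons_zero, Fin.update_cons_zero] at h2
        exact h2.differentiableWithinAt
      · intro z hz
        refine ih hW' ?_ ?_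
        · have h3 : Continuous fun y : Fin n → ℂ => (Fin.cons z y : Fin (n + 1) → ℂ) :=
            hcons.comp (by fun_prop : Continuous fun y : Fin n → ℂ => (z, y))
          exact hc.comp h3.continuousOn (fun y hy => hmem z hz y hy)
        · intro y hy i
          have h2 := hd _ (hmem z hz y hy) i.succ
          simp only [Fin.cons_succ] at h2
          refine h2.congr_of_eventuallyEq (Eventually.of_forall fun τ => ?_)
          simp only [hG]
          rw [Fin.cons_update]
    have h4 : DifferentiableAt ℂ (fun x : Fin (n + 1) → ℂ => (x 0, Fin.tail x)) x0 := by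
      refine DifferentiableAt.prodMk (by fun_prop) ?_
      refine differentiableAt_pi.2 fun i => ?_
      simp only [Fin.tail]
      fun_prop
    have h5 : DifferentiableAt ℂ (fun x : Fin (n + 1) → ℂ => G (x 0) (Fin.tail x)) x0 :=
      DifferentiableAt.comp (g := fun p : ℂ × (Fin n → ℂ) => G p.1 p.2) x0 h1 h4
    refine (h5.congr_of_eventuallyEq (Eventually.of_forall fun x => ?_)).differentiableWithinAt
    simp only [hG]
    rw [Fin.cons_self_tail]

end Vale.Agent.P272.GEO
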