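import Vale.Agent.P272.GEO.Defs
import Mathlib.Geometry.Manifold.PartitionOfUnity
import Mathlib.Topology.Instances.Matrix

/-! # Smooth frames of `f^*TX` along a disc `f` which is continuous on the closed disc

Continuous frames are carried along the dilations `z ↦ f (r z)`, then smoothed with a fine partition of
unity in the disc variable. -/

open scoped Manifold ContDiff ComplexOrder Topology
open Complex Set Filter Metric

set_option linter.all false

noncomputable section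

namespace Vale.Agent.P272.GEO.SF

open Vale.Agent.P272.K Vale.Agent.P272.BR Vale.Agent.P272.CT Vale.Agent.P272.GEO

/-- square matrices -/
abbrev Mt (n : ℕ) : Type := Matrix (Fin n) (Fin n) ℂ

/-- the closed unit disc -/
abbrev KD : Set ℂ := closedBall (0 : ℂ) 1

/-- the open unit disc -/
abbrev DD : Set ℂ := ball (0 : ℂ) 1

/-! ### matrices -/

lemma cwa_inv {n : ℕ} {S : Set ℂ} {z : ℂ} {A : ℂ → Mt n} (hA : ContinuousWithinAt A S z)
    (hz : (A z).det ≠ 0) : ContinuousWithinAt (fun w => (A w)⁻¹) S z := by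
  have h1 : (fun w => (A w)⁻¹) = fun w => ((A w).det)⁻¹ • (A w).adjugate := by
    funext w; rw [Matrix.inv_def, Ring.inverse_eq_inv']
  rw [h1]
  have h2 : ContinuousWithinAt (fun w => (A w).det) S z :=
    (continuous_id.matrix_det).continuousAt.comp_continuousWithinAt hA
  have h3 : ContinuousWithinAt (fun w => (A w).adjugate) S z :=
    (continuous_id.matrix_adjugate).continuousAt.comp_continuousWithinAt hA
  exact (h2.inv₀ hz).smul h3

/-- a convex neighbourhood of the identity consisting of invertible matrices -/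
lemma exists_convex_det (n : ℕ) : ∃ W : Set (Mt n), W ∈ 𝓝 (1 : Mt n) ∧ Convex ℝ W ∧
    ∀ M ∈ W, M.det ≠ 0 := by
  let o : Fin n → Fin n → ℂ := fun i j => (1 : Mt n) i j
  have h1 : Continuous fun M : Fin n → Fin n → ℂ => (Matrix.of M).det :=
    (continuous_id (X := Mt n)).matrix_det
  have h2 : (fun M : Fin n → Fin n → ℂ => (Matrix.of M).det) ⁻¹' {d | d ≠ 0} ∈ 𝓝 o := by
    refine (h1.continuousAt).preimage_mem_nhds ?_
    refine isOpen_ne.mem_nhds ?_
    show (1 : Mt n).det ≠ 0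
    simp
  obtain ⟨ε, hε, hb⟩ := Metric.mem_nhds_iff.1 h2
  refine ⟨(ball o ε : Set (Fin n → Fin n → ℂ)), ?_, ?_, ?_⟩
  · exact ball_mem_nhds o hε
  · exact convex_ball o ε
  · intro M hM
    exact hb hM

lemma det_sum_ne_zero {n : ℕ} {ι : Type*} {W : Set (Mt n)} (hW : Convex ℝ W)
    (hdet : ∀ M ∈ W, M.det ≠ 0) (h1 : (1 : Mt n) ∈ W) (t : Finset ι) (ψ : ι → ℝ) (M : ι → Mt n)
    (h0 : ∀ i ∈ t, 0 ≤ ψ i) (hs : ∑ i ∈ t, ψ i = 1) (hM : ∀ i ∈ t, ψ i ≠ 0 → M i ∈ W) :
    (∑ i ∈ t, (ψ i : ℂ) • M i).det ≠ 0 := by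
  classical
  have h2 : ∑ i ∈ t, (ψ i : ℂ) • M i = ∑ i ∈ t, ψ i • (if ψ i = 0 then 1 else M i) := by
    refine Finset.sum_congr rfl fun i hi => ?_
    by_cases h : ψ i = 0
    · simp [h]
    · rw [if_neg h]
      exact (Complex.coe_smul (ψ i) (M i))
  rw [h2]
  refine hdet _ (hW.sum_mem h0 hs fun i hi => ?_)
  by_cases h : ψ i = 0
  · simp [h, h1]
  · rw [if_neg h]; exact hM i hi h

/-! ### partitions of unity in the disc variable -/

/-- a finite smooth partition of unity on the closed disc subordinate to open sets `U z ∋ z` -/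
lemma exists_pou (U : ℂ → Set ℂ) (hU : ∀ z ∈ KD, U z ∈ 𝓝 z) :
    ∃ (t : Finset ℂ) (ψ : ℂ → ℂ → ℝ), (∀ i ∈ t, i ∈ KD) ∧ (∀ i, ContDiff ℝ ∞ (ψ i)) ∧
      (∀ i z, 0 ≤ ψ i z) ∧ (∀ i ∈ t, tsupport (ψ i) ⊆ U i) ∧ ∀ z ∈ KD, ∑ i ∈ t, ψ i z = 1 := by
  classical
  obtain ⟨t, ht, hcov⟩ := (isCompact_closedBall (0 : ℂ) 1).elim_nhds_subcover
    (fun z => interior (U z)) (fun z hz => interior_mem_nhds.2 (hU z hz))
  obtain ⟨ρ, hρ⟩ := SmoothPartitionOfUnity.exists_isSubordinate 𝓘(ℝ, ℂ)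
    (isClosed_closedBall (x := (0 : ℂ)) (ε := 1)) (fun i : t => interior (U i))
    (fun i => isOpen_interior) (by
      intro z hz
      obtain ⟨i, hi, hzi⟩ := mem_iUnion₂.1 (hcov hz)
      exact mem_iUnion.2 ⟨⟨i, hi⟩, hzi⟩)
  refine ⟨t, fun i z => if h : i ∈ t then ρ ⟨i, h⟩ z else 0, ht, ?_, ?_, ?_, ?_⟩
  · intro i
    by_cases h : i ∈ t
    · simp only [dif_pos h]
      exact (ρ ⟨i, h⟩).contMDiff.contDiff
    · simp only [dif_neg h]
      exact contDiff_const
  · intro i z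
    by_cases h : i ∈ t
    · simp only [dif_pos h]
      exact ρ.nonneg _ _
    · simp only [dif_neg h]
      exact le_rfl
  · intro i hi
    simp only [dif_pos hi]
    exact (hρ ⟨i, hi⟩).trans interior_subset
  · intro z hz
    have h1 := ρ.sum_eq_one hz
    rw [finsum_eq_sum_of_fintype] at h1
    refine Eq.trans ?_ h1
    rw [← Finset.sum_coe_sort]
    refine Finset.sum_congr rfl fun i _ => ?_
    simp only [i.2, dif_pos]

/-! ### glued matrix functions -/

section glue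
variable {n : ℕ} {X : Type*} [TopologicalSpace X] [ChartedSpace (Cm n) X]

/-- `Σ_j χ_j(z) • (jacM (c_j) e (g z) * A_j(z))` -/
def glue {ι : Type*} (t : Finset ι) (χ : ι → ℂ → ℂ) (c : ι → Chart n X) (A : ι → ℂ → Mt n)
    (g : ℂ → X) (e : Chart n X) (z : ℂ) : Mt n :=
  ∑ j ∈ t, χ j z • (jacM (c j) e (g z) * A j z)

variable [IsManifold 𝓘(ℂ, Cm n) ω X]

lemma jacM_continuousAt {e e' : Chart n X} {x : X} (h : At e x) (h' : At e' x) :
    ContinuousAt (fun y => jacM e e' y) x := by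
  have h1 : ContinuousAt (fun w : Cm n => jacM e e' (e.symm w)) (e x) := by
    refine continuousAt_pi.2 fun p => continuousAt_pi.2 fun i => ?_
    exact (jacM_holo h h' p i).continuousAt
  have h2 : ContinuousAt (fun y => jacM e e' (e.symm (e y))) x :=
    ContinuousAt.comp (f := e) (g := fun w : Cm n => jacM e e' (e.symm w)) h1
      (e.continuousAt h.2)
  refine h2.congr ?_
  filter_upwards [e.open_source.mem_nhds h.2] with y hy
  rw [e.left_inv hy]

lemma jacM_cwa {e e' : Chart n X} {g : ℂ → X} {S : Set ℂ} {z : ℂ}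
    (hg : ContinuousWithinAt g S z) (h : At e (g z)) (h' : At e' (g z)) :
    ContinuousWithinAt (fun w => jacM e e' (g w)) S z :=
  (jacM_continuousAt h h').comp_continuousWithinAt hg

lemma eventually_at_cwa {e : Chart n X} {g : ℂ → X} {S : Set ℂ} {z : ℂ}
    (hg : ContinuousWithinAt g S z) (h : At e (g z)) : ∀ᶠ w in 𝓝[S] z, At e (g w) := by
  filter_upwards [hg.eventually (e.open_source.mem_nhds h.2)] with w hw
  exact ⟨h.1, hw⟩

lemma glue_cocycle {ι : Type*} {t : Finset ι} {χ : ι → ℂ → ℂ} {c : ι → Chart n X}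
    {A : ι → ℂ → Mt n} {g : ℂ → X} {e e' : Chart n X} {z : ℂ} (h : At e (g z)) (h' : At e' (g z))
    (hc : ∀ j ∈ t, χ j z ≠ 0 → At (c j) (g z)) :
    glue t χ c A g e' z = jacM e e' (g z) * glue t χ c A g e z := by
  unfold glue
  rw [Finset.mul_sum]
  refine Finset.sum_congr rfl fun j hj => ?_
  by_cases h0 : χ j z = 0
  · simp [h0]
  · rw [jacM_comp (hc j hj h0) h h', Matrix.mul_smul, Matrix.mul_assoc]

lemma term_cwa {S F : Set ℂ} {z : ℂ} {χ : ℂ → ℂ} {G : ℂ → Mt n} (hF : IsClosed F)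
    (hχ : ContinuousWithinAt χ S z) (h0 : ∀ w, w ∉ F → χ w = 0)
    (hG : z ∈ F → ContinuousWithinAt G S z) : ContinuousWithinAt (fun w => χ w • G w) S z := by
  by_cases hz : z ∈ F
  · exact hχ.smul (hG hz)
  · have h1 : (fun w => χ w • G w) =ᶠ[𝓝 z] fun _ => 0 := by
      filter_upwards [hF.isOpen_compl.mem_nhds hz] with w hw
      rw [h0 w hw, zero_smul]
    exact (continuousWithinAt_const (b := (0 : Mt n))).congr_of_eventuallyEq
      (h1.filter_mono nhdsWithin_le_nhds) h1.self_of_nhds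

lemma glue_cwa {ι : Type*} {t : Finset ι} {χ : ι → ℂ → ℂ} {c : ι → Chart n X}
    {A : ι → ℂ → Mt n} {g : ℂ → X} {e : Chart n X} {z : ℂ} {S : Set ℂ} {F : ι → Set ℂ}
    (hF : ∀ j ∈ t, IsClosed (F j)) (h : At e (g z)) (hg : ContinuousWithinAt g S z)
    (hχ : ∀ j ∈ t, ContinuousWithinAt (χ j) S z) (h0 : ∀ j ∈ t, ∀ w, w ∉ F j → χ j w = 0)
    (hc : ∀ j ∈ t, z ∈ F j → At (c j) (g z)) (hA : ∀ j ∈ t, z ∈ F j → ContinuousWithinAt (A j) S z) :
    ContinuousWithinAt (glue t χ c A g e) S z := by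
  unfold glue
  refine tendsto_finset_sum _ fun j hj => ?_
  exact term_cwa (hF j hj) (hχ j hj) (h0 j hj) fun hz =>
    (jacM_cwa hg (hc j hj hz) h).mul (hA j hj hz)

/-! ### patches -/

/-- a finite smooth partition of unity on the closed disc, with charts around the images -/
structure Patch {ι : Type*} (f : ℂ → X) (t : Finset ι) (ψ : ι → ℂ → ℝ) (c : ι → Chart n X) :
    Prop where
  smooth : ∀ i, ContDiff ℝ ∞ (ψ i)
  nonneg : ∀ i z, 0 ≤ ψ i z
  sum_one : ∀ z ∈ KD, ∑ i ∈ t, ψ i z = 1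
  at' : ∀ i ∈ t, ∀ z ∈ KD, z ∈ tsupport (ψ i) → At (c i) (f z)

lemma unif_near {S : Set ℂ} (hS : IsCompact S) {P : ℂ → ℂ → Prop}
    (h : ∀ z ∈ S, ∀ᶠ p : ℂ × ℂ in 𝓝[S ×ˢ S] (z, z), P p.1 p.2) :
    ∃ δ > 0, ∀ w ∈ S, ∀ w' ∈ S, dist w' w < δ → P w w' := by
  have h1 : ∀ z ∈ S, ∃ ε > 0, ∀ w w', dist w z < ε → dist w' z < ε → w ∈ S → w' ∈ S → P w w' := by
    intro z hz
    have h2 := eventually_nhdsWithin_iff.1 (h z hz)
    obtain ⟨ε, hε, hb⟩ := Metric.eventually_nhds_iff.1 h2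
    refine ⟨ε, hε, fun w w' hw hw' hwS hw'S => ?_⟩
    exact hb (y := (w, w')) (by rw [Prod.dist_eq]; exact max_lt hw hw') ⟨hwS, hw'S⟩
  choose! ε hε hP using h1
  obtain ⟨δ, hδ, hδ'⟩ := lebesgue_number_lemma_of_metric (c := fun z : S => ball (z : ℂ) (ε z)) hS
    (fun z => isOpen_ball) (fun z hz => mem_iUnion.2 ⟨⟨z, hz⟩, mem_ball_self (hε z hz)⟩)
  refine ⟨δ, hδ, fun w hw w' hw' hd => ?_⟩
  obtain ⟨z, hz⟩ := hδ' w hw
  exact hP z z.2 w w' (hz (mem_ball_self hδ)) (hz hd) hw hw'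

lemma Patch.step_delta {ι : Type*} {f : ℂ → X} {t : Finset ι} {ψ : ι → ℂ → ℝ}
    {c : ι → Chart n X} (hP : Patch f t ψ c) (hf : ContinuousOn f KD) {W : Set (Mt n)}
    (hW : W ∈ 𝓝 (1 : Mt n)) :
    ∃ δ > 0, ∀ w ∈ KD, ∀ w' ∈ KD, dist w' w < δ → ∀ i ∈ t, ∀ j ∈ t, w ∈ tsupport (ψ i) →
      w ∈ tsupport (ψ j) → At (c i) (f w') ∧ jacM (c j) (c i) (f w') * jacM (c i) (c j) (f w) ∈ W := by
  refine unif_near (isCompact_closedBall (0 : ℂ) 1) fun z hz => ?_
  refine (Finset.eventually_all t).2 fun i hi => (Finset.eventually_all t).2 fun j hj => ?_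
  have hp1 : Tendsto (fun p : ℂ × ℂ => p.1) (𝓝[KD ×ˢ KD] (z, z)) (𝓝 z) :=
    (continuous_fst.continuousWithinAt (x := ((z, z) : ℂ × ℂ))).tendsto
  by_cases h1 : z ∈ tsupport (ψ i)
  · by_cases h2 : z ∈ tsupport (ψ j)
    · have ai := hP.at' i hi z hz h1
      have aj := hP.at' j hj z hz h2
      have hf1 : ContinuousWithinAt (fun p : ℂ × ℂ => f p.1) (KD ×ˢ KD) (z, z) :=
        ContinuousWithinAt.comp (f := fun p : ℂ × ℂ => p.1) (g := f) (t := KD) (hf z hz)
          (continuous_fst.continuousWithinAt) (fun p hp => hp.1)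
      have hf2 : ContinuousWithinAt (fun p : ℂ × ℂ => f p.2) (KD ×ˢ KD) (z, z) :=
        ContinuousWithinAt.comp (f := fun p : ℂ × ℂ => p.2) (g := f) (t := KD) (hf z hz)
          (continuous_snd.continuousWithinAt) (fun p hp => hp.2)
      have hJ : ContinuousWithinAt (fun p : ℂ × ℂ => jacM (c j) (c i) (f p.2) *
          jacM (c i) (c j) (f p.1)) (KD ×ˢ KD) (z, z) :=
        (ContinuousAt.comp_continuousWithinAt (f := fun p : ℂ × ℂ => f p.2)
          (g := fun y => jacM (c j) (c i) y) (jacM_continuousAt aj ai) hf2).mul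
        (ContinuousAt.comp_continuousWithinAt (f := fun p : ℂ × ℂ => f p.1)
          (g := fun y => jacM (c i) (c j) y) (jacM_continuousAt ai aj) hf1)
      have hJ1 : ∀ᶠ p : ℂ × ℂ in 𝓝[KD ×ˢ KD] (z, z), jacM (c j) (c i) (f p.2) *
          jacM (c i) (c j) (f p.1) ∈ W := by
        refine hJ.eventually (p := fun M => M ∈ W) ?_
        show ∀ᶠ M in 𝓝 (jacM (c j) (c i) (f z) * jacM (c i) (c j) (f z)), M ∈ W
        rw [jacM_mul ai aj]
        exact hW
      have hA : ∀ᶠ p : ℂ × ℂ in 𝓝[KD ×ˢ KD] (z, z), At (c i) (f p.2) := by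
        filter_upwards [hf2.eventually ((c i).open_source.mem_nhds ai.2)] with p hp
        exact ⟨ai.1, hp⟩
      filter_upwards [hJ1, hA] with p hp hp' _ _
      exact ⟨hp', hp⟩
    · filter_upwards [hp1.eventually ((isClosed_tsupport (ψ j)).isOpen_compl.mem_nhds h2)] with
        p hp _ hp'
      exact absurd hp' hp
  · filter_upwards [hp1.eventually ((isClosed_tsupport (ψ i)).isOpen_compl.mem_nhds h1)] with
      p hp hp'
    exact absurd hp' hp

lemma mem_tsupport_of_ne {ψ : ℂ → ℝ} {z : ℂ} (h : ψ z ≠ 0) : z ∈ tsupport ψ :=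
  subset_tsupport _ h

lemma not_mem_tsupport {ψ : ℂ → ℝ} {z : ℂ} (h : z ∉ tsupport ψ) : ψ z = 0 :=
  image_eq_zero_of_notMem_tsupport h

lemma mul_mem_KD {r : ℝ} (h0 : 0 ≤ r) (h1 : r ≤ 1) {z : ℂ} (hz : z ∈ KD) : (r : ℂ) * z ∈ KD := by
  rw [mem_closedBall_zero_iff] at hz ⊢
  rw [norm_mul, Complex.norm_real, Real.norm_of_nonneg h0]
  nlinarith [norm_nonneg z]

/-- one dilation step -/
lemma cframe_step {ι : Type*} {f : ℂ → X} {t : Finset ι} {ψ : ι → ℂ → ℝ}
    {c : ι → Chart n X} (hP : Patch f t ψ c) (hf : ContinuousOn f KD) {W : Set (Mt n)}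
    (hW : (1 : Mt n) ∈ W) (hWc : Convex ℝ W) (hWd : ∀ M ∈ W, M.det ≠ 0) {δ : ℝ}
    (hδ : ∀ w ∈ KD, ∀ w' ∈ KD, dist w' w < δ → ∀ i ∈ t, ∀ j ∈ t, w ∈ tsupport (ψ i) →
      w ∈ tsupport (ψ j) → At (c i) (f w') ∧ jacM (c j) (c i) (f w') * jacM (c i) (c j) (f w) ∈ W)
    {r r' : ℝ} (hr : 0 ≤ r) (hr1 : r ≤ 1) (hr' : 0 ≤ r') (hr'1 : r' ≤ 1) (hd : |r' - r| < δ)
    {C : Chart n X → ℂ → Mt n} (hC : CFrame (fun z => f (r * z)) C) :
    CFrame (fun z => f (r' * z)) (glue t (fun j z => (ψ j (r * z) : ℂ)) c (fun j => C (c j))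
      (fun z => f (r' * z))) := by
  have hdist : ∀ z ∈ KD, dist ((r' : ℂ) * z) (r * z) < δ := by
    intro z hz
    rw [mem_closedBall_zero_iff] at hz
    rw [dist_eq_norm, ← sub_mul, norm_mul, ← Complex.ofReal_sub, Complex.norm_real,
      Real.norm_eq_abs]
    nlinarith [abs_nonneg (r' - r), norm_nonneg z]
  have key : ∀ z ∈ KD, ∀ i ∈ t, ∀ j ∈ t, (r * z : ℂ) ∈ tsupport (ψ i) →
      (r * z : ℂ) ∈ tsupport (ψ j) → At (c i) (f (r' * z)) ∧
        jacM (c j) (c i) (f (r' * z)) * jacM (c i) (c j) (f (r * z)) ∈ W := fun z hz =>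
    hδ _ (mul_mem_KD hr hr1 hz) _ (mul_mem_KD hr' hr'1 hz) (hdist z hz)
  have hcat : ∀ z ∈ KD, ∀ j ∈ t, (ψ j (r * z) : ℂ) ≠ 0 → At (c j) (f (r' * z)) := by
    intro z hz j hj h0
    have h1 := mem_tsupport_of_ne (ψ := ψ j) (z := r * z) (by exact_mod_cast h0)
    exact (key z hz j hj j hj h1 h1).1
  refine ⟨fun e e' z hz he he' => ?_, fun e z hz he => ?_, fun e z hz he => ?_⟩
  · exact glue_cocycle (g := fun z : ℂ => f (r' * z)) he he' (hcat z hz)
  · -- continuity
    have hcr : Continuous fun z : ℂ => (r : ℂ) * z := continuous_const.mul continuous_id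
    have hcr' : Continuous fun z : ℂ => (r' : ℂ) * z := continuous_const.mul continuous_id
    have hg : ContinuousWithinAt (fun z : ℂ => f (r' * z)) KD z :=
      ContinuousWithinAt.comp (f := fun z : ℂ => (r' : ℂ) * z) (g := f) (t := KD)
        (hf _ (mul_mem_KD hr' hr'1 hz)) hcr'.continuousWithinAt
        (fun w hw => mul_mem_KD hr' hr'1 hw)
    refine glue_cwa (F := fun j => (fun z : ℂ => (r : ℂ) * z) ⁻¹' tsupport (ψ j))
      (fun j _ => (isClosed_tsupport _).preimage hcr) he hg (fun j _ => ?_) (fun j _ w hw => ?_)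
      (fun j hj hjt => (key z hz j hj j hj hjt hjt).1) (fun j hj hjt => ?_)
    · exact (continuous_ofReal.comp ((hP.smooth j).continuous.comp hcr)).continuousWithinAt
    · show ((ψ j (r * w) : ℝ) : ℂ) = 0
      rw [not_mem_tsupport (ψ := ψ j) hw, Complex.ofReal_zero]
    · exact hC.cont _ _ hz (hP.at' j hj _ (mul_mem_KD hr hr1 hz) hjt)
  · -- determinant
    have hs := hP.sum_one _ (mul_mem_KD hr hr1 hz)
    have hex : ∃ i ∈ t, ψ i (r * z) ≠ 0 := by
      by_contra hcon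
      push Not at hcon
      rw [Finset.sum_eq_zero hcon] at hs
      exact zero_ne_one hs
    obtain ⟨i, hi, hi0⟩ := hex
    have hit := mem_tsupport_of_ne (ψ := ψ i) hi0
    have hir : At (c i) (f (r * z)) := hP.at' i hi _ (mul_mem_KD hr hr1 hz) hit
    have hir' : At (c i) (f (r' * z)) := (key z hz i hi i hi hit hit).1
    have heq : glue t (fun j z => (ψ j (r * z) : ℂ)) c (fun j => C (c j))
        (fun z => f (r' * z)) e z = jacM (c i) e (f (r' * z)) *
          (∑ j ∈ t, (ψ j (r * z) : ℂ) • (jacM (c j) (c i) (f (r' * z)) *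
            jacM (c i) (c j) (f (r * z)))) * C (c i) z := by
      unfold glue
      rw [Finset.mul_sum, Finset.sum_mul]
      refine Finset.sum_congr rfl fun j hj => ?_
      by_cases h0 : ψ j (r * z) = 0
      · simp [h0]
      · have hjt := mem_tsupport_of_ne (ψ := ψ j) h0
        have hjr : At (c j) (f (r * z)) := hP.at' j hj _ (mul_mem_KD hr hr1 hz) hjt
        have hjr' : At (c j) (f (r' * z)) := (key z hz j hj j hj hjt hjt).1
        beta_reduce
        rw [hC.change (c i) (c j) z hz hir hjr, jacM_comp hjr' hir' he]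
        rw [Matrix.mul_smul, Matrix.smul_mul]
        simp only [Matrix.mul_assoc]
    rw [heq, Matrix.det_mul, Matrix.det_mul]
    refine mul_ne_zero (mul_ne_zero (jacM_det_ne_zero hir' he) ?_) (hC.det _ _ hz hir)
    refine det_sum_ne_zero hWc hWd hW t (fun j => ψ j (r * z)) _ (fun j _ => hP.nonneg j _) hs
      fun j hj h0 => ?_
    exact (key z hz i hi j hj hit (mem_tsupport_of_ne (ψ := ψ j) h0)).2

/-- charts and a partition of unity for `f` -/
lemma exists_patch {f : ℂ → X} (hf : ContinuousOn f KD) (U : ℂ → Set ℂ)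
    (hU : ∀ z ∈ KD, ∀ᶠ w in 𝓝[KD] z, w ∈ U z) :
    ∃ (t : Finset ℂ) (ψ : ℂ → ℂ → ℝ), (∀ i ∈ t, i ∈ KD) ∧
      Patch f t ψ (fun i => (chartAt (Cm n) (f i) : Chart n X)) ∧
      ∀ i ∈ t, ∀ z ∈ KD, z ∈ tsupport (ψ i) → z ∈ U i := by
  obtain ⟨t, ψ, ht, h1, h2, h3, h4⟩ := exists_pou
    (fun z => {w | w ∈ KD → w ∈ U z ∧ At (chartAt (Cm n) (f z) : Chart n X) (f w)}) (by
      intro z hz
      have h5 := (hU z hz).and (eventually_at_cwa (hf z hz) (at_chartAt (n := n) (f z)))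
      exact eventually_nhdsWithin_iff.1 h5)
  exact ⟨t, ψ, ht, ⟨h1, h2, h4, fun i hi z hz hz' => (h3 i hi hz' hz).2⟩,
    fun i hi z hz hz' => (h3 i hi hz' hz).1⟩

/-- a continuous frame of `f^*TX` over the closed disc -/
theorem exists_CFrame {f : ℂ → X} (hf : ContinuousOn f KD) :
    ∃ C : Chart n X → ℂ → Mt n, CFrame f C := by
  obtain ⟨W, hW, hWc, hWd⟩ := exists_convex_det n
  obtain ⟨t, ψ, ht, hP, -⟩ := exists_patch (n := n) hf (fun _ => univ)
    (fun z hz => Eventually.of_forall fun w => mem_univ w)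
  obtain ⟨δ, hδ, hst⟩ := hP.step_delta hf hW
  obtain ⟨N, hN⟩ := exists_nat_gt (1 / δ)
  have hN0 : (0 : ℝ) < N := lt_trans (by positivity) hN
  have hstep : |(1 : ℝ) / N| < δ := by
    rw [abs_of_pos (by positivity), div_lt_iff₀ hN0]
    rw [div_lt_iff₀ hδ] at hN
    linarith
  have main : ∀ k : ℕ, k ≤ N → ∃ C : Chart n X → ℂ → Mt n,
      CFrame (fun z => f (((k : ℝ) / N : ℝ) * z)) C := by
    intro k
    induction k with
    | zero =>
      intro _
      have he0 := at_chartAt (n := n) (f 0)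
      refine ⟨fun e _ => jacM (chartAt (Cm n) (f 0)) e (f 0), ?_, ?_, ?_⟩
      · intro e e' z hz he he'
        simp only [Nat.cast_zero, zero_div, Complex.ofReal_zero, zero_mul] at he he' ⊢
        exact jacM_comp he0 he he'
      · intro e z hz he
        exact continuousWithinAt_const
      · intro e z hz he
        simp only [Nat.cast_zero, zero_div, Complex.ofReal_zero, zero_mul] at he
        exact jacM_det_ne_zero he0 he
    | succ k ih =>
      intro hk
      obtain ⟨C, hC⟩ := ih (by omega)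
      have hk1 : ((k : ℝ)) + 1 ≤ N := by exact_mod_cast hk
      refine ⟨_, cframe_step hP hf (mem_of_mem_nhds hW) hWc hWd hst (r := (k : ℝ) / N)
        (r' := ((k + 1 : ℕ) : ℝ) / N) (by positivity) ?_ (by positivity) ?_ ?_ hC⟩
      · rw [div_le_one hN0]; linarith
      · rw [div_le_one hN0]; push_cast; exact hk1
      · have : ((k + 1 : ℕ) : ℝ) / N - (k : ℝ) / N = 1 / N := by push_cast; ring
        rw [this]; exact hstep
  obtain ⟨C, hC⟩ := main N le_rfl
  refine ⟨C, ?_⟩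
  have h1 : ((N : ℝ) / N : ℝ) = 1 := div_self hN0.ne'
  simpa only [h1, Complex.ofReal_one, one_mul] using hC

/-! ### holomorphic dependence on the disc variable -/

/-- the Jacobian matrices are holomorphic along a holomorphic disc -/
lemma jacM_differentiable_along {f : ℂ → X} {e e' : Chart n X} {z : ℂ} (hf : HolAt n f z)
    (h : At e (f z)) (h' : At e' (f z)) (p i : Fin n) :
    DifferentiableAt ℂ (fun ζ => jacM e e' (f ζ) p i) z := by
  have h1 : DifferentiableAt ℂ (fun w : Cm n => jacM e e' (e.symm w) p i) (e (f z)) :=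
    (jacM_holo h h' p i).differentiableAt (by simp)
  have h2 : DifferentiableAt ℂ (fun ζ => jacM e e' (e.symm (e (f ζ))) p i) z :=
    DifferentiableAt.comp (g := fun w : Cm n => jacM e e' (e.symm w) p i) z h1 (hf.2 e h)
  refine h2.congr_of_eventuallyEq ?_
  filter_upwards [HolAt.eventually_at hf.1 h] with ζ hζ
  rw [hζ.left_inv]

lemma jacM_analytic_along {f : ℂ → X} {e e' : Chart n X} {z : ℂ} (hf : HolOn n f DD)
    (hz : z ∈ DD) (h : At e (f z)) (h' : At e' (f z)) (p i : Fin n) :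
    AnalyticAt ℂ (fun ζ => jacM e e' (f ζ) p i) z := by
  rw [Complex.analyticAt_iff_eventually_differentiableAt]
  filter_upwards [HolAt.eventually_at (hf z hz).1 h, HolAt.eventually_at (hf z hz).1 h',
    isOpen_ball.mem_nhds hz] with ζ h1 h2 h3
  exact jacM_differentiable_along (hf ζ h3) h1 h2 p i

lemma mul_const_analytic {A : ℂ → Mt n} {B : Mt n} {z : ℂ}
    (hA : ∀ p i, AnalyticAt ℂ (fun ζ => A ζ p i) z) (p i : Fin n) :
    AnalyticAt ℂ (fun ζ => (A ζ * B) p i) z := by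
  simp only [Matrix.mul_apply]
  exact Finset.analyticAt_fun_sum _ fun k _ => (hA p k).mul analyticAt_const

lemma tsupport_ofReal (ψ : ℂ → ℝ) : tsupport (fun w => (ψ w : ℂ)) ⊆ tsupport ψ :=
  tsupport_comp_subset (g := fun x : ℝ => (x : ℂ)) Complex.ofReal_zero ψ

lemma dbar_ofReal_eq_zero {ψ : ℂ → ℝ} {z : ℂ} (h : z ∉ tsupport ψ) :
    dbar (fun w => (ψ w : ℂ)) z = 0 :=
  image_eq_zero_of_notMem_tsupport fun h' => h (tsupport_ofReal ψ (tsupport_dbar _ h'))

lemma contDiff_ofReal {ψ : ℂ → ℝ} (h : ContDiff ℝ ∞ ψ) : ContDiff ℝ ∞ fun w => (ψ w : ℂ) :=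
  Complex.ofRealCLM.contDiff.comp h

/-- `ψ h` with `h` holomorphic near the support of `ψ` -/
lemma term_smooth {ψ : ℂ → ℝ} (hψ : ContDiff ℝ ∞ ψ) {h : ℂ → ℂ} {z : ℂ}
    (hh : z ∈ tsupport ψ → AnalyticAt ℂ h z) :
    ContDiffAt ℝ ∞ (fun ζ => (ψ ζ : ℂ) * h ζ) z ∧
      dbar (fun ζ => (ψ ζ : ℂ) * h ζ) z = dbar (fun w => (ψ w : ℂ)) z * h z := by
  by_cases hz : z ∈ tsupport ψ
  · have h1 := hh hz
    have h2 : ContDiffAt ℝ ∞ h z := (h1.contDiffAt (n := ∞)).restrict_scalars ℝ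
    refine ⟨(contDiff_ofReal hψ).contDiffAt.mul h2, ?_⟩
    have h3 : DifferentiableAt ℝ (fun w => (ψ w : ℂ)) z :=
      (contDiff_ofReal hψ).contDiffAt.differentiableAt (by simp)
    have h4 : DifferentiableAt ℝ h z := h2.differentiableAt (by simp)
    have h5 := dbarV_smul h3 h4
    rw [(dbarV_eq_zero_iff h4).2 h1.differentiableAt, smul_zero, add_zero] at h5
    exact h5
  · have h1 : (fun ζ => (ψ ζ : ℂ) * h ζ) =ᶠ[𝓝 z] fun _ => 0 := by
      filter_upwards [(isClosed_tsupport ψ).isOpen_compl.mem_nhds hz] with w hw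
      rw [not_mem_tsupport (ψ := ψ) hw, Complex.ofReal_zero, zero_mul]
    refine ⟨contDiffAt_const.congr_of_eventuallyEq h1, ?_⟩
    rw [dbar_ofReal_eq_zero hz, zero_mul]
    have h2 : dbarV (fun ζ => (ψ ζ : ℂ) * h ζ) z = dbarV (fun _ => (0 : ℂ)) z := dbarV_congr h1
    have h3 : dbarV (fun _ => (0 : ℂ)) z = 0 := by
      unfold dbarV; simp
    exact h2.trans h3

lemma dbar_sum {ι : Type*} (t : Finset ι) (u : ι → ℂ → ℂ) {z : ℂ}
    (h : ∀ j ∈ t, DifferentiableAt ℝ (u j) z) :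
    dbar (fun ζ => ∑ j ∈ t, u j ζ) z = ∑ j ∈ t, dbar (u j) z := by
  unfold dbar
  rw [fderiv_fun_sum h]
  simp only [ContinuousLinearMap.coe_sum', Finset.sum_apply, Finset.mul_sum, mul_add,
    Finset.sum_add_distrib]

/-- **smooth frames** -/
theorem exists_SFrame {f : ℂ → X} (hf : Disc n f) :
    ∃ (B : Chart n X → ℂ → Mt n) (a : ℂ → Mt n), SFrame f B a := by
  obtain ⟨C, hC⟩ := exists_CFrame (n := n) hf.cont
  obtain ⟨W, hW, hWc, hWd⟩ := exists_convex_det n
  set c : ℂ → Chart n X := fun i => chartAt (Cm n) (f i) with hc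
  have hcat : ∀ z, At (c z) (f z) := fun z => at_chartAt (n := n) (f z)
  obtain ⟨t, ψ, ht, hP, hPU⟩ := exists_patch (n := n) hf.cont
    (fun z => {w | (C (c z) w)⁻¹ * C (c z) z ∈ W}) (by
      intro z hz
      have h1 : ContinuousWithinAt (fun w => (C (c z) w)⁻¹ * C (c z) z) KD z :=
        (cwa_inv (hC.cont _ z hz (hcat z)) (hC.det _ z hz (hcat z))).mul continuousWithinAt_const
      refine h1.eventually (p := fun M => M ∈ W) ?_
      show ∀ᶠ M in 𝓝 ((C (c z) z)⁻¹ * C (c z) z), M ∈ W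
      rw [Matrix.nonsing_inv_mul _ (isUnit_iff_ne_zero.2 (hC.det _ z hz (hcat z)))]
      exact hW)
  set A : ℂ → ℂ → Mt n := fun j _ => C (c j) j with hA
  set B : Chart n X → ℂ → Mt n := glue t (fun j z => (ψ j z : ℂ)) c A f with hB
  set G : Chart n X → ℂ → Mt n := glue t (fun j z => dbar (fun w => (ψ j w : ℂ)) z) c A f with hG
  have hBch : ∀ (e e' : Chart n X) (z : ℂ), z ∈ KD → At e (f z) → At e' (f z) →
      B e' z = jacM e e' (f z) * B e z := by
    intro e e' z hz he he'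
    refine glue_cocycle he he' fun j hj h0 => ?_
    exact hP.at' j hj z hz (mem_tsupport_of_ne (ψ := ψ j) (by exact_mod_cast h0))
  have hGch : ∀ (e e' : Chart n X) (z : ℂ), z ∈ KD → At e (f z) → At e' (f z) →
      G e' z = jacM e e' (f z) * G e z := by
    intro e e' z hz he he'
    refine glue_cocycle he he' fun j hj h0 => ?_
    refine hP.at' j hj z hz ?_
    by_contra h1
    exact h0 (dbar_ofReal_eq_zero h1)
  have hBct : ∀ (e : Chart n X) (z : ℂ), z ∈ KD → At e (f z) → ContinuousWithinAt (B e) KD z := by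
    intro e z hz he
    refine glue_cwa (F := fun j => tsupport (ψ j)) (fun j _ => isClosed_tsupport _) he
      (hf.cont z hz) (fun j _ => ?_) (fun j _ w hw => ?_) (fun j hj hjt => hP.at' j hj z hz hjt)
      (fun j _ _ => continuousWithinAt_const)
    · exact (contDiff_ofReal (hP.smooth j)).continuous.continuousWithinAt
    · show ((ψ j w : ℝ) : ℂ) = 0
      rw [not_mem_tsupport (ψ := ψ j) hw, Complex.ofReal_zero]
  have hGct : ∀ (e : Chart n X) (z : ℂ), z ∈ KD → At e (f z) → ContinuousWithinAt (G e) KD z := by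
    intro e z hz he
    refine glue_cwa (F := fun j => tsupport (ψ j)) (fun j _ => isClosed_tsupport _) he
      (hf.cont z hz) (fun j _ => ?_) (fun j _ w hw => dbar_ofReal_eq_zero hw)
      (fun j hj hjt => hP.at' j hj z hz hjt) (fun j _ _ => continuousWithinAt_const)
    exact (contDiff_dbar (contDiff_ofReal (hP.smooth j))).continuous.continuousWithinAt
  have hBdet : ∀ (e : Chart n X) (z : ℂ), z ∈ KD → At e (f z) → (B e z).det ≠ 0 := by
    intro e z hz he
    have heq : B e z = C e z * ∑ j ∈ t, (ψ j z : ℂ) • ((C (c j) z)⁻¹ * C (c j) j) := by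
      rw [hB]
      unfold glue
      rw [Finset.mul_sum]
      refine Finset.sum_congr rfl fun j hj => ?_
      beta_reduce
      by_cases h0 : ψ j z = 0
      · simp [h0]
      · have hj' := hP.at' j hj z hz (mem_tsupport_of_ne (ψ := ψ j) h0)
        rw [Matrix.mul_smul, hC.change (c j) e z hz hj' he, Matrix.mul_assoc,
          Matrix.mul_nonsing_inv_cancel_left _ _
            (isUnit_iff_ne_zero.2 (hC.det _ z hz hj'))]
    rw [heq, Matrix.det_mul]
    refine mul_ne_zero (hC.det e z hz he) ?_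
    exact det_sum_ne_zero hWc hWd (mem_of_mem_nhds hW) t (fun j => ψ j z) _
      (fun j _ => hP.nonneg j _) (hP.sum_one z hz)
      fun j hj h0 => hPU j hj z hz (mem_tsupport_of_ne (ψ := ψ j) h0)
  set a : ℂ → Mt n := fun z => (B (c z) z)⁻¹ * G (c z) z with ha
  have ha' : ∀ (e : Chart n X) (z : ℂ), z ∈ KD → At e (f z) → a z = (B e z)⁻¹ * G e z := by
    intro e z hz he
    have hJ := jacM_isUnit (hcat z) he
    show (B (c z) z)⁻¹ * G (c z) z = (B e z)⁻¹ * G e z
    rw [hBch (c z) e z hz (hcat z) he, hGch (c z) e z hz (hcat z) he, Matrix.mul_inv_rev,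
      Matrix.mul_assoc, Matrix.nonsing_inv_mul_cancel_left _ _ hJ]
  refine ⟨B, a, ⟨⟨hBch, hBct, hBdet⟩, ?_, ?_, ?_⟩⟩
  · intro e z hz he p q
    have hB1 : (fun ζ => B e ζ p q) = fun ζ => ∑ j ∈ t, (ψ j ζ : ℂ) *
        (jacM (c j) e (f ζ) * A j ζ) p q := by
      funext ζ
      rw [hB]
      unfold glue
      rw [Matrix.sum_apply]
      rfl
    rw [hB1]
    refine ContDiffAt.sum fun j hj => (term_smooth (hP.smooth j) fun hjt => ?_).1
    exact mul_const_analytic (fun p i => jacM_analytic_along hf.holo hz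
      (hP.at' j hj z (ball_subset_closedBall hz) hjt) he p i) p q
  · intro e z hz he p q
    have hzK : z ∈ KD := ball_subset_closedBall hz
    have hB1 : (fun ζ => B e ζ p q) = fun ζ => ∑ j ∈ t, (ψ j ζ : ℂ) *
        (jacM (c j) e (f ζ) * A j ζ) p q := by
      funext ζ
      rw [hB]
      unfold glue
      rw [Matrix.sum_apply]
      rfl
    have hT : ∀ j ∈ t, _ := fun j hj => term_smooth (hP.smooth j)
      (h := fun ζ => (jacM (c j) e (f ζ) * A j ζ) p q) (z := z) fun hjt =>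
      mul_const_analytic (fun p i => jacM_analytic_along hf.holo hz
        (hP.at' j hj z hzK hjt) he p i) p q
    rw [hB1, dbar_sum t _ fun j hj => (hT j hj).1.differentiableAt (by simp),
      Finset.sum_congr rfl fun j hj => (hT j hj).2]
    rw [ha' e z hzK he, Matrix.mul_nonsing_inv_cancel_left _ _
      (isUnit_iff_ne_zero.2 (hBdet e z hzK he)), hG]
    unfold glue
    rw [Matrix.sum_apply]
    rfl
  · intro z hz
    have h1 : ContinuousWithinAt (fun w => (B (c z) w)⁻¹ * G (c z) w) KD z :=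
      (cwa_inv (hBct _ z hz (hcat z)) (hBdet _ z hz (hcat z))).mul (hGct _ z hz (hcat z))
    refine h1.congr_of_eventuallyEq ?_ (ha' _ z hz (hcat z))
    filter_upwards [eventually_at_cwa (hf.cont z hz) (hcat z), self_mem_nhdsWithin] with w hw hwK
    exact ha' _ w hwK hw

end glue

theorem sframeStmt : SFrameStmt := by
  intro n X _ _ _ _ _ f hf
  exact exists_SFrame (n := n) hf

end Vale.Agent.P272.GEO.SF
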